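import Vale.Agent.P353.Z.U.StmtC

/-! # P353, all `N`, block F: the free BMN model on `ℝ^9 ⊗ 𝔷` (statements; owner helper62)

`S : Setup r K` is any Clifford system for `r` colours (the structure constants do not enter: put `f = 0`, `κ = 1`).
`FD β = -i (γ^i θ^A)_β ∂_i^A + a_i x_i^A (γ^i Γ θ^A)_β` is the free BMN supercharge with mass `1`. For `f = 0` it is `Qm 1 β`.
All weak equations may be tested off the collision set `Coll L` only. -/

open MeasureTheory Filter Topology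
open scoped ContDiff

namespace Vale.Agent.P353.Z

variable {r : ℕ} {K : Type*} [NormedAddCommGroup K] [InnerProductSpace ℂ K]

/-- enlarged collision set of a finite set of covectors: only the directions `i < 8` are tested (codimension `8`); it contains
the collisions `∀ i : Fin 9, l(y_i) = 0` -/
def Coll (L : Finset (Fin r → ℝ)) : Set (Cfg r) :=
  {y | ∃ l ∈ L, ∀ i : Fin 8, ∑ A, l A * y (i.castSucc, A) = 0}

/-- test functions supported off the collision set -/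
def TstOff (L : Finset (Fin r → ℝ)) (ζ : Cfg r → K) : Prop :=
  Setup.Tst ζ ∧ Disjoint (tsupport ζ) (Coll L)

/-- the ground state density `exp(-½ ∑ a_i |x_i|²)` -/
noncomputable def gss (x : Cfg r) : ℝ := Real.exp (-(1 / 2) * ∑ i, ∑ A, aw i * x (i, A) ^ 2)

namespace Setup

variable (S : Setup r K)

/-- free BMN supercharge, mass `1` -/
noncomputable def FD (β : Fin 16) (u : Cfg r → K) (x : Cfg r) : K := S.Q0 β u x + S.MM β x (u x)

/-- `θ_α^A - i (Γθ^A)_α` -/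
noncomputable def amF (A : Fin r) (α : Fin 16) : K →L[ℂ] K :=
  S.th α A - Complex.I • S.vec S.Gam A α

/-- `FD_β u = v` weakly, tested off the collisions -/
def wF (L : Finset (Fin r → ℝ)) (β : Fin 16) (u v : Cfg r → K) : Prop :=
  ∀ ζ, TstOff L ζ → ∫ x, inner ℂ (S.FD β ζ x) (u x) = ∫ x, inner ℂ (ζ x) (v x)

end Setup

namespace AF

/-- **F-Cut** cutoffs near the collision set. PROOF: `η_n(y) = ∏_{l∈L} χ(n²∑_{i<8}(∑_A l_A y_{iA})²)`, `χ : ℝ → [0,1]` smooth, `χ = 0` on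
`(-∞,1]`, `χ = 1` on `[2,∞)`. `|∂η_n| ≤ Cn∑_l 1_{|l(y)| ≤ 2/n}`, `|{|y| ≤ s, |l(y)| ≤ 2/n}| ≤ C_s n^{-8}` (after the orthogonal change of
coordinates that makes `l` a multiple of the first coordinate; or Fubini in one coordinate `A` with `l_A ≠ 0`). -/
def CutStmt (r : ℕ) : Prop := ∀ L : Finset (Fin r → ℝ), (∀ l ∈ L, l ≠ 0) → ∃ η : ℕ → Cfg r → ℝ,
  (∀ n, ContDiff ℝ ∞ (η n)) ∧ (∀ n y, 0 ≤ η n y ∧ η n y ≤ 1) ∧
  (∀ n, Disjoint (tsupport (η n)) (Coll L)) ∧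
  (∀ y, y ∉ Coll L → ∀ᶠ n in atTop, η n y = 1) ∧
  (∀ᵐ y ∂(volume : Measure (Cfg r)), y ∉ Coll L) ∧
  ∀ s : ℝ, 0 < s → Tendsto (fun n => ∑ i, ∑ A, ∫ y in Metric.ball (0 : Cfg r) s, pdr i A (η n) y ^ 2) atTop (𝓝 0)

/-- **F-Rem** the collision set is removable. PROOF: test with `η_n ζ`, `FD(ηζ) = ηFDζ - i(γθ∇η)ζ`, dominated convergence and
`|∫⟨(γθ∇η_n)ζ,u⟩| ≤ C‖ζ‖_∞ (∑∫_{ball s}|∂η_n|²)^{1/2} ‖u‖_{L²}`. -/
def RemStmt (S : Setup r K) : Prop := ∀ L : Finset (Fin r → ℝ), (∀ l ∈ L, l ≠ 0) →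
  ∀ (β : Fin 16) (u v : Cfg r → K), MemLp u 2 (volume : Measure (Cfg r)) →
    MemLp v 2 (volume : Measure (Cfg r)) → S.wF L β u v → S.wF ∅ β u v

/-- **F-Rem2** general form. -/
def Rem2Stmt (S : Setup r K) : Prop := ∀ L : Finset (Fin r → ℝ), (∀ l ∈ L, l ≠ 0) →
  ∀ (v : Fin 16 → Cfg r → K) (g : Cfg r → K), (∀ β, MemLp (v β) 2 (volume : Measure (Cfg r))) →
    MemLp g 2 (volume : Measure (Cfg r)) →
    (∀ ζ, TstOff L ζ → ∑ β, ∫ x, inner ℂ (S.FD β ζ x) (v β x) = ∫ x, inner ℂ (ζ x) (g x)) →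
    ∀ ζ, Setup.Tst ζ → ∑ β, ∫ x, inner ℂ (S.FD β ζ x) (v β x) = ∫ x, inner ℂ (ζ x) (g x)

/-- **F-Str** weak = strong, simultaneously for a set of indices. PROOF: mollification (`MM` is linear in `x`) and cutoff. -/
def StrStmt (S : Setup r K) : Prop := ∀ (B : Finset (Fin 16)) (u : Cfg r → K) (v : Fin 16 → Cfg r → K),
  MemLp u 2 (volume : Measure (Cfg r)) → (∀ β ∈ B, MemLp (v β) 2 (volume : Measure (Cfg r))) →
  (∀ β ∈ B, S.wF ∅ β u (v β)) → ∃ w : ℕ → Cfg r → K, (∀ n, Setup.Tst (w n)) ∧ L2t w u ∧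
    ∀ β ∈ B, L2t (fun n => S.FD β (w n)) (v β)

/-- **F-Res** (self-adjointness of one free supercharge) `D w = v`, `D v = φ - w`, `D φ₀ = 0` weakly off the collisions give
`‖w - φ₀‖ ≤ ‖φ - φ₀‖` (`w = (1 + D²)⁻¹ φ`). -/
def ResStmt (S : Setup r K) : Prop := ∀ L : Finset (Fin r → ℝ), (∀ l ∈ L, l ≠ 0) →
  ∀ (β : Fin 16) (φ φ₀ w v : Cfg r → K), MemLp φ 2 (volume : Measure (Cfg r)) →
    MemLp φ₀ 2 (volume : Measure (Cfg r)) → MemLp w 2 (volume : Measure (Cfg r)) →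
    MemLp v 2 (volume : Measure (Cfg r)) → S.wF L β w v → S.wF L β v (fun x => φ x - w x) →
    S.wF L β φ₀ (fun _ => 0) → nsq (fun x => w x - φ₀ x) ≤ nsq (fun x => φ x - φ₀ x)

/-- **F-Res2** summed form (all supercharges): `D_β w = v_β`, `∑_β D_β v_β = c (φ - w)`, `D_β φ₀ = 0` weakly off the
collisions give `‖w - φ₀‖ ≤ ‖φ - φ₀‖`. -/
def Res2Stmt (S : Setup r K) : Prop := ∀ L : Finset (Fin r → ℝ), (∀ l ∈ L, l ≠ 0) →
  ∀ (c : ℝ) (φ φ₀ w : Cfg r → K) (v : Fin 16 → Cfg r → K), 0 < c →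
    MemLp φ 2 (volume : Measure (Cfg r)) → MemLp φ₀ 2 (volume : Measure (Cfg r)) →
    MemLp w 2 (volume : Measure (Cfg r)) → (∀ β, MemLp (v β) 2 (volume : Measure (Cfg r))) →
    (∀ β, S.wF L β w (v β)) →
    (∀ ζ, TstOff L ζ → ∑ β, ∫ x, inner ℂ (S.FD β ζ x) (v β x) =
      ∫ x, inner ℂ (ζ x) ((c : ℂ) • (φ x - w x))) →
    (∀ β, S.wF L β φ₀ (fun _ => 0)) → nsq (fun x => w x - φ₀ x) ≤ nsq (fun x => φ x - φ₀ x)

/-- **F-Ker** joint `L²` kernel of the free supercharges: Gaussian times vacuum vector. -/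
def KerStmt (S : Setup r K) : Prop := ∀ L : Finset (Fin r → ℝ), (∀ l ∈ L, l ≠ 0) →
  ∀ u : Cfg r → K, MemLp u 2 (volume : Measure (Cfg r)) → (∀ β, S.wF L β u (fun _ => 0)) →
    ∃ w : K, (∀ A α, S.amF A α w = 0) ∧ ∀ᵐ x ∂(volume : Measure (Cfg r)), u x = (gss x : ℂ) • w

/-- **F-Gss** the Gaussian is a zero mode. -/
def GssStmt (S : Setup r K) : Prop := ∀ w : K, (∀ A α, S.amF A α w = 0) →
  ContDiff ℝ ∞ (fun x : Cfg r => (gss x : ℂ) • w) ∧
  MemLp (fun x : Cfg r => (gss x : ℂ) • w) 2 (volume : Measure (Cfg r)) ∧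
  (∀ β x, S.FD β (fun x => (gss x : ℂ) • w) x = 0) ∧
  ∀ L β, S.wF L β (fun x => (gss x : ℂ) • w) (fun _ => 0)

/-- **F-Vac** the vacuum vectors of an irreducible module form a line, invariant under `Spin(3) × Spin(6)`. -/
def VacFStmt (S : Setup r K) : Prop := S.Irr → (∃ v : K, v ≠ 0) →
  ∃ Ω : K, ‖Ω‖ = 1 ∧ (∀ A α, S.amF A α Ω = 0) ∧ (∀ k l, Same k l → S.Skl k l Ω = 0) ∧
    ∀ w : K, (∀ A α, S.amF A α w = 0) → ∃ c : ℂ, w = c • Ω

/-- **F-App** the zero modes are limits in the graph norm of test functions supported off the collisions. -/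
def AppStmt (S : Setup r K) : Prop := ∀ L : Finset (Fin r → ℝ), (∀ l ∈ L, l ≠ 0) →
  ∀ w : K, (∀ A α, S.amF A α w = 0) → ∃ ζ : ℕ → Cfg r → K, (∀ n, TstOff L (ζ n)) ∧
    L2t ζ (fun x => (gss x : ℂ) • w) ∧ ∀ β, L2t (fun n => S.FD β (ζ n)) (fun _ => 0)

/-- **F-Perm** unitaries that implement an orthogonal transformation of the colour index preserve the vacuum line. -/
def PermStmt (S : Setup r K) : Prop := ∀ (O : Matrix (Fin r) (Fin r) ℝ) (U : K →L[ℂ] K),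
  (∀ α A, U * S.th α A = ∑ B, (O B A : ℂ) • (S.th α B * U)) → O * O.transpose = 1 →
  ∀ w : K, (∀ A α, S.amF A α w = 0) → ∀ A α, S.amF A α (U w) = 0

end AF
end Vale.Agent.P353.Z
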