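import Vale.Agent.P353.AN.F.Gss

/-! # P353, all `N`, block F: test functions off the collisions are dense in the graph norm -/

open MeasureTheory Filter Topology
open scoped ContDiff

namespace Vale.Agent.P353.Z.AF

variable {r : ℕ} {K : Type*} [NormedAddCommGroup K] [InnerProductSpace ℂ K]

open Vale.Agent.P353.Z.Moll Vale.Agent.P353.Z.U.HB Vale.Agent.P353.Z.U.WS

lemma esaD_sq (S : Setup r K) (η : Cfg r → ℝ) (β : Fin 16) (x : Cfg r) (v : K) :
    ‖S.esaD η β x v‖ ^ 2 ≤ (∑ i, ∑ A, pdr i A η x ^ 2) *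
      (∑ i, ∑ A, ‖S.vec (S.g i) A β‖ ^ 2) * ‖v‖ ^ 2 := by
  have h1 : ‖S.esaD η β x‖ ≤ ∑ p : Fin 9 × Fin r, |pdr p.1 p.2 η x| * ‖S.vec (S.g p.1) p.2 β‖ := by
    unfold Setup.esaD
    rw [norm_smul, Complex.norm_I, one_mul, Fintype.sum_prod_type]
    refine (norm_sum_le _ _).trans (Finset.sum_le_sum fun i _ => ?_)
    refine (norm_sum_le _ _).trans (Finset.sum_le_sum fun A _ => ?_)
    rw [norm_smul, Complex.norm_real, Real.norm_eq_abs]
  have h2 : (∑ p : Fin 9 × Fin r, |pdr p.1 p.2 η x| * ‖S.vec (S.g p.1) p.2 β‖) ^ 2 ≤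
      (∑ i, ∑ A, pdr i A η x ^ 2) * (∑ i, ∑ A, ‖S.vec (S.g i) A β‖ ^ 2) := by
    refine (Finset.sum_mul_sq_le_sq_mul_sq _ _ _).trans (le_of_eq ?_)
    simp only [sq_abs, Fintype.sum_prod_type]
  calc ‖S.esaD η β x v‖ ^ 2 ≤ (‖S.esaD η β x‖ * ‖v‖) ^ 2 :=
        pow_le_pow_left₀ (norm_nonneg _) ((S.esaD η β x).le_opNorm v) 2
    _ = ‖S.esaD η β x‖ ^ 2 * ‖v‖ ^ 2 := by ring
    _ ≤ _ := by
        refine mul_le_mul_of_nonneg_right ?_ (sq_nonneg _)
        exact (pow_le_pow_left₀ (norm_nonneg _) h1 2).trans h2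

/-- multiplication by functions `0 ≤ η_n ≤ 1` that tend to `1` almost everywhere -/
lemma eta_L2t {η : ℕ → Cfg r → ℝ} (hη : ∀ n, Continuous (η n)) (h01 : ∀ n y, 0 ≤ η n y ∧ η n y ≤ 1)
    (h1 : ∀ᵐ y ∂(volume : Measure (Cfg r)), ∀ᶠ n in atTop, η n y = 1) {f : Cfg r → K}
    (hf : MemLp f 2 (volume : Measure (Cfg r))) :
    L2t (fun n x => ((η n x : ℝ) : ℂ) • f x) f := by
  have hm : ∀ n, AEStronglyMeasurable (fun x => ((η n x : ℝ) : ℂ) • f x) volume := fun n =>
    (Complex.continuous_ofReal.comp (hη n)).aestronglyMeasurable.smul hf.1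
  refine ⟨fun n => ?_, hf, ?_⟩
  · refine MemLp.of_le hf (hm n) (Eventually.of_forall fun x => ?_)
    rw [norm_smul, Complex.norm_real, Real.norm_of_nonneg (h01 n x).1]
    exact mul_le_of_le_one_left (norm_nonneg _) (h01 n x).2
  · have h2 : ∀ n x, ‖((η n x : ℝ) : ℂ) • f x - f x‖ ^ 2 ≤ ‖f x‖ ^ 2 := by
      intro n x
      have e : ((η n x : ℝ) : ℂ) • f x - f x = ((η n x - 1 : ℝ) : ℂ) • f x := by
        push_cast
        rw [sub_smul, one_smul]
      rw [e, norm_smul, Complex.norm_real, mul_pow, Real.norm_eq_abs, sq_abs]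
      have h3 : (η n x - 1) ^ 2 ≤ 1 := by nlinarith [(h01 n x).1, (h01 n x).2]
      calc (η n x - 1) ^ 2 * ‖f x‖ ^ 2 ≤ 1 * ‖f x‖ ^ 2 := by gcongr
        _ = _ := one_mul _
    have h3 := tendsto_integral_of_dominated_convergence (μ := (volume : Measure (Cfg r)))
      (F := fun n x => ‖((η n x : ℝ) : ℂ) • f x - f x‖ ^ 2) (f := fun _ => (0 : ℝ))
      (fun x => ‖f x‖ ^ 2) (fun n => (((hm n).sub hf.1).norm).pow 2) (memLp_norm_sq_int hf)
      (fun n => Eventually.of_forall fun x => by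
        rw [Real.norm_of_nonneg (by positivity)]; exact h2 n x) ?_
    · simpa [nsq] using h3
    · filter_upwards [h1] with x hx
      refine tendsto_const_nhds.congr' ?_
      filter_upwards [hx] with n hn
      rw [hn]
      simp

/-- test functions supported off the collisions are dense in the graph norm -/
theorem den (hcut : CutStmt r) (S : Setup r K) (L : Finset (Fin r → ℝ)) (hL : ∀ l ∈ L, l ≠ 0)
    {v : Cfg r → K} (hv : Setup.Tst v) : ∃ ζ : ℕ → Cfg r → K, (∀ n, TstOff L (ζ n)) ∧ L2t ζ v ∧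
      ∀ β, L2t (fun n => S.FD β (ζ n)) (S.FD β v) := by
  obtain ⟨η, hη, h01, hd, h1, hae, hgr⟩ := hcut L hL
  have h1' : ∀ᵐ y ∂(volume : Measure (Cfg r)), ∀ᶠ n in atTop, η n y = 1 := by
    filter_upwards [hae] with y hy using h1 y hy
  have hT : ∀ n, Setup.Tst (fun x => ((η n x : ℝ) : ℂ) • v x) := fun n => hv.rsmul (hη n)
  refine ⟨fun n x => ((η n x : ℝ) : ℂ) • v x, fun n => ⟨hT n, ?_⟩,
    eta_L2t (fun n => (hη n).continuous) h01 h1' hv.memLp, fun β => ?_⟩
  · refine (hd n).mono_left (closure_mono fun x hx => ?_)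
    simp only [Function.mem_support] at hx ⊢
    intro h0
    exact hx (by simp [h0])
  · have e : ∀ n x, S.FD β (fun x => ((η n x : ℝ) : ℂ) • v x) x =
        ((η n x : ℝ) : ℂ) • S.FD β v x + -(S.esaD (η n) β x (v x)) := by
      intro n x
      rw [FD_smul S β (η n) v x ((hη n).differentiable (by simp) x) (hv.diff x), sub_eq_add_neg]
    have a1 := eta_L2t (fun n => (hη n).continuous) h01 h1' (Tst_FD S hv β).memLp
    have hTe : ∀ n, Setup.Tst (fun x => -(S.esaD (η n) β x (v x))) := by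
      intro n
      have h2 : Setup.Tst (fun x => (S.esaD (η n) β x) (v x)) :=
        Setup.Tst.clm (S.esa_contDiff_D (hη n) β) hv
      refine ⟨h2.1.neg, ?_⟩
      exact h2.2.neg
    have a2 : L2t (fun n x => -(S.esaD (η n) β x (v x))) (fun _ => 0) := by
      refine zero_L2t hTe ?_
      obtain ⟨s, hs⟩ := hv.2.isCompact.isBounded.subset_ball (0 : Cfg r)
      obtain ⟨M, hM⟩ := hv.2.exists_bound_of_continuous hv.1.continuous
      set c : ℝ := (∑ i, ∑ A, ‖S.vec (S.g i) A β‖ ^ 2) * M ^ 2 with hc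
      have hc0 : 0 ≤ c := by positivity
      set s' : ℝ := max s 1 with hs'
      have hs1 : 0 < s' := lt_of_lt_of_le one_pos (le_max_right _ _)
      have hv0 : ∀ x, x ∉ Metric.ball (0 : Cfg r) s' → v x = 0 := by
        intro x hx
        by_contra hne
        exact hx (Metric.ball_subset_ball (le_max_left _ _) (hs (subset_tsupport _ hne)))
      have hb : ∀ n, ∫ x, ‖-(S.esaD (η n) β x (v x))‖ ^ 2 ≤
          c * ∑ i, ∑ A, ∫ y in Metric.ball (0 : Cfg r) s', pdr i A (η n) y ^ 2 := by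
        intro n
        have hi : ∀ i A, IntegrableOn (fun y => pdr i A (η n) y ^ 2) (Metric.ball (0 : Cfg r) s') := by
          intro i A
          have hc2 : Continuous (fun y => pdr i A (η n) y ^ 2) :=
            (esa_pdr_smooth (hη n) i A).continuous.pow 2
          exact (hc2.locallyIntegrable.integrableOn_isCompact
            (isCompact_closedBall (0 : Cfg r) s')).mono_set Metric.ball_subset_closedBall
        have e1 : ∑ i, ∑ A, ∫ y in Metric.ball (0 : Cfg r) s', pdr i A (η n) y ^ 2 =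
            ∫ y in Metric.ball (0 : Cfg r) s', ∑ i, ∑ A, pdr i A (η n) y ^ 2 := by
          rw [integral_finsetSum _ fun i _ => integrable_finsetSum _ fun A _ => hi i A]
          exact Finset.sum_congr rfl fun i _ => (integral_finsetSum _ fun A _ => hi i A).symm
        rw [e1, ← integral_const_mul, ← integral_indicator Metric.isOpen_ball.measurableSet]
        refine integral_mono_of_nonneg (Eventually.of_forall fun x => by positivity) ?_
          (Eventually.of_forall fun x => ?_)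
        · refine (integrable_indicator_iff Metric.isOpen_ball.measurableSet).2 ?_
          exact (integrable_finsetSum _ fun i _ => integrable_finsetSum _ fun A _ => hi i A).const_mul c
        · simp only
          by_cases hx : x ∈ Metric.ball (0 : Cfg r) s'
          · rw [Set.indicator_of_mem hx, norm_neg]
            refine (esaD_sq S (η n) β x (v x)).trans ?_
            have h3 : ‖v x‖ ^ 2 ≤ M ^ 2 := pow_le_pow_left₀ (norm_nonneg _) (hM x) 2
            have h4 : 0 ≤ ∑ i, ∑ A, pdr i A (η n) x ^ 2 := by positivity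
            have h5 : 0 ≤ ∑ i, ∑ A, ‖S.vec (S.g i) A β‖ ^ 2 := by positivity
            calc (∑ i, ∑ A, pdr i A (η n) x ^ 2) * (∑ i, ∑ A, ‖S.vec (S.g i) A β‖ ^ 2) * ‖v x‖ ^ 2
                ≤ (∑ i, ∑ A, pdr i A (η n) x ^ 2) * (∑ i, ∑ A, ‖S.vec (S.g i) A β‖ ^ 2) * M ^ 2 :=
                  mul_le_mul_of_nonneg_left h3 (mul_nonneg h4 h5)
              _ = _ := by rw [hc]; ring
          · rw [Set.indicator_of_notMem hx, hv0 x hx]
            simp
      refine squeeze_zero (fun n => integral_nonneg fun x => by positivity) hb ?_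
      simpa using (hgr s' hs1).const_mul c
    have a3 := a1.add a2
    have e2 : (fun n => S.FD β (fun x => ((η n x : ℝ) : ℂ) • v x)) =
        fun n x => ((η n x : ℝ) : ℂ) • S.FD β v x + -(S.esaD (η n) β x (v x)) := by
      funext n x
      exact e n x
    rw [e2]
    simpa using a3

/-- **F-App** -/
theorem app (hcut : CutStmt r) (S : Setup r K) : AppStmt S := by
  intro L hL w hw
  obtain ⟨κ, hκ0, hκ⟩ := exists_rc
  have hch : ∀ n : ℕ, ∃ h : ℝ → ℝ, IsRC κ ((n : ℝ) + 1) h := fun n => hκ _ (by positivity)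
  choose h hh using hch
  set u : Cfg r → K := fun x => (gss x : ℂ) • w with hu
  have hus : ContDiff ℝ ∞ u := (Setup.contDiff_ofReal contDiff_gss).smul contDiff_const
  have hum : MemLp u 2 (volume : Measure (Cfg r)) := memLp_gss w
  set z : ℕ → Cfg r → K := fun n x => ((rad (h n) x : ℝ) : ℂ) • u x with hz
  have hT : ∀ n, Setup.Tst (z n) := by
    intro n
    refine ⟨(Setup.contDiff_ofReal (contDiff_rad (hh n).contDiff)).smul hus, ?_⟩
    refine HasCompactSupport.intro (isCompact_closedBall (0 : Cfg r) ((n : ℝ) + 1)) fun x hx => ?_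
    rw [Metric.mem_closedBall, dist_zero_right, not_le] at hx
    simp only [hz]
    rw [(hh n).zero x hx.le, Complex.ofReal_zero, zero_smul]
  have hd := fun n => den hcut S L hL (hT n)
  choose ζ hζ1 hζ2 hζ3 using hd
  have hpick : ∀ n : ℕ, ∃ k, nsq (fun x => ζ n k x - z n x) ≤ 1 / ((n : ℝ) + 1) ∧
      ∀ β, nsq (fun x => S.FD β (ζ n k) x - S.FD β (z n) x) ≤ 1 / ((n : ℝ) + 1) := by
    intro n
    have hp : (0 : ℝ) < 1 / ((n : ℝ) + 1) := by positivity
    have e1 := (hζ2 n).lim.eventually (ge_mem_nhds hp)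
    have e2 : ∀ β, ∀ᶠ k in atTop, nsq (fun x => S.FD β (ζ n k) x - S.FD β (z n) x) ≤
        1 / ((n : ℝ) + 1) := fun β => (hζ3 n β).lim.eventually (ge_mem_nhds hp)
    exact (e1.and (eventually_all.2 e2)).exists
  choose k hk1 hk2 using hpick
  have hlim1 : Tendsto (fun n : ℕ => 1 / ((n : ℝ) + 1)) atTop (𝓝 0) :=
    tendsto_one_div_add_atTop_nhds_zero_nat
  refine ⟨fun n => ζ n (k n), fun n => hζ1 n (k n), ⟨fun n => (hζ1 n (k n)).1.memLp, hum, ?_⟩,
    fun β => ⟨fun n => (Tst_FD S (hζ1 n (k n)).1 β).memLp, MemLp.zero, ?_⟩⟩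
  · have hb : ∀ n, nsq (fun x => ζ n (k n) x - u x) ≤ 2 * (1 / ((n : ℝ) + 1)) +
        2 * nsq (fun x => ((rad (h n) x : ℝ) : ℂ) • u x - u x) := by
      intro n
      have m1 : MemLp (fun x => ζ n (k n) x - z n x) 2 (volume : Measure (Cfg r)) :=
        (hζ1 n (k n)).1.memLp.sub (hT n).memLp
      have m2 : MemLp (fun x => z n x - u x) 2 (volume : Measure (Cfg r)) := (hT n).memLp.sub hum
      have e1 := nsq_add_le m1 m2
      have e2 : (fun x => ζ n (k n) x - u x) = fun x => (ζ n (k n) x - z n x) + (z n x - u x) := by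
        funext x; abel
      rw [e2]
      exact e1.trans (add_le_add (mul_le_mul_of_nonneg_left (hk1 n) (by norm_num)) le_rfl)
    refine squeeze_zero (fun n => nsq_nonneg _) hb ?_
    have := (hlim1.const_mul 2).add ((cut_tendsto hum hh).const_mul 2)
    simpa using this
  · have hDc : ∀ n, Continuous (fun x => S.esaD (rad (h n)) β x) := fun n =>
      (S.esa_contDiff_D (contDiff_rad (hh n).contDiff) β).continuous
    have hDb : ∀ n x, ‖S.esaD (rad (h n)) β x‖ ≤ κ / ((n : ℝ) + 1) * S.esaC β := fun n x =>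
      D_norm S (fun j A y => (hh n).grad j A y) β x
    have hFz : ∀ n x, S.FD β (z n) x = -(S.esaD (rad (h n)) β x (u x)) := by
      intro n x
      have e3 : S.FD β (z n) x = ((rad (h n) x : ℝ) : ℂ) • S.FD β u x -
          S.esaD (rad (h n)) β x (u x) :=
        FD_smul S β (rad (h n)) u x ((contDiff_rad (hh n).contDiff).differentiable (by simp) x)
          (hus.differentiable (by simp) x)
      rw [e3, hu, FD_gss S hw, smul_zero, zero_sub]
    have hb : ∀ n, nsq (fun x => S.FD β (ζ n (k n)) x - 0) ≤ 2 * (1 / ((n : ℝ) + 1)) +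
        2 * ((κ / ((n : ℝ) + 1) * S.esaC β) ^ 2 * nsq u) := by
      intro n
      have m1 : MemLp (fun x => S.FD β (ζ n (k n)) x - S.FD β (z n) x) 2 (volume : Measure (Cfg r)) :=
        (Tst_FD S (hζ1 n (k n)).1 β).memLp.sub (Tst_FD S (hT n) β).memLp
      have e1 := nsq_add_le m1 (Tst_FD S (hT n) β).memLp
      have e2 : (fun x => S.FD β (ζ n (k n)) x - 0) =
          fun x => (S.FD β (ζ n (k n)) x - S.FD β (z n) x) + S.FD β (z n) x := by
        funext x; simp
      rw [e2]
      refine e1.trans (add_le_add (mul_le_mul_of_nonneg_left (hk2 n β) (by norm_num))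
        (mul_le_mul_of_nonneg_left ?_ (by norm_num)))
      have e3 : nsq (S.FD β (z n)) = nsq (fun x => S.esaD (rad (h n)) β x (u x)) := by
        unfold nsq
        refine integral_congr_ae (Eventually.of_forall fun x => ?_)
        simp only [hFz, norm_neg]
      rw [e3]
      exact nsq_op_le (hDb n) hum
    refine squeeze_zero (fun n => nsq_nonneg _) hb ?_
    have hl3 : Tendsto (fun n : ℕ => (κ / ((n : ℝ) + 1) * S.esaC β) ^ 2 * nsq u) atTop (𝓝 0) := by
      have h1 : ∀ n : ℕ, (κ / ((n : ℝ) + 1) * S.esaC β) ^ 2 * nsq u =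
          (κ * S.esaC β * (1 / ((n : ℝ) + 1))) ^ 2 * nsq u := fun n => by ring
      simp only [h1]
      have := ((hlim1.const_mul (κ * S.esaC β)).pow 2).mul_const (nsq u)
      simpa using this
    have := (hlim1.const_mul 2).add (hl3.const_mul 2)
    simpa using this

end Vale.Agent.P353.Z.AF
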