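import Vale.Agent.P353.AN.F.Stmt
import Vale.Agent.P353.Z.U.WS

/-! # P353, all `N`, block F: weak = strong for the free supercharges, self-adjointness -/

open MeasureTheory Filter Topology
open scoped ContDiff

namespace Vale.Agent.P353.Z.AF

variable {r : ℕ} {K : Type*} [NormedAddCommGroup K] [InnerProductSpace ℂ K]

open Vale.Agent.P353.Z.Moll Vale.Agent.P353.Z.U.HB Vale.Agent.P353.Z.U.WS

/-- the same Clifford system with vanishing structure constants -/
noncomputable def flat (S : Setup r K) : Setup r K :=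
  { S with
    f := fun _ _ _ => 0
    f_swap := by intros; simp
    f_cyc := by intros; simp
    f_jac := by intros; simp }

variable (S : Setup r K)

lemma flat_Qm (β : Fin 16) (u : Cfg r → K) (x : Cfg r) : (flat S).Qm 1 β u x = S.FD β u x := by
  have hW : (flat S).W β x = 0 := by
    simp [Setup.W, Setup.FF, flat]
  unfold Setup.Qm Setup.Q Setup.FD Setup.Q0
  rw [hW]
  simp only [_root_.zero_apply, add_zero, Complex.ofReal_one, one_smul]
  rfl

lemma flat_Qm' (β : Fin 16) (u : Cfg r → K) : (flat S).Qm 1 β u = S.FD β u :=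
  funext fun x => flat_Qm S β u x

lemma Tst_FD {u : Cfg r → K} (hu : Setup.Tst u) (β : Fin 16) : Setup.Tst (S.FD β u) := by
  rw [← flat_Qm']
  exact (flat S).esa_Tst_Qm hu 1 β

lemma contDiff_FD {u : Cfg r → K} (hu : ContDiff ℝ ∞ u) (β : Fin 16) : ContDiff ℝ ∞ (S.FD β u) := by
  rw [← flat_Qm']
  exact (flat S).esa_contDiff_Qm 1 β hu

lemma FD_symm (β : Fin 16) (u v : Cfg r → K) (hu : Setup.Tst u) (hv : ContDiff ℝ ∞ v) :
    ∫ x, inner ℂ (S.FD β u x) (v x) = ∫ x, inner ℂ (u x) (S.FD β v x) := by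
  rw [← flat_Qm', ← flat_Qm']
  exact (flat S).esa_Qm_symm 1 β u v hu hv

lemma FD_smul (β : Fin 16) (φ : Cfg r → ℝ) (u : Cfg r → K) (x : Cfg r)
    (hφ : DifferentiableAt ℝ φ x) (hu : DifferentiableAt ℝ u x) :
    S.FD β (fun y => ((φ y : ℝ) : ℂ) • u y) x = ((φ x : ℝ) : ℂ) • S.FD β u x -
      S.esaD φ β x (u x) := by
  rw [← flat_Qm', ← flat_Qm', (flat S).esa_Qm_smul 1 β φ u x hφ hu]
  rfl

lemma MM_lip (β : Fin 16) : ∃ C : ℝ, 0 ≤ C ∧ ∀ x y : Cfg r, ‖S.MM β x - S.MM β y‖ ≤ C * ‖x - y‖ := by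
  refine ⟨∑ i, ∑ A, |aw i| * ‖S.vec (S.g i * S.Gam) A β‖, by positivity, fun x y => ?_⟩
  have e : S.MM β x - S.MM β y =
      ∑ i, ∑ A, ((aw i * (x - y) (i, A) : ℝ) : ℂ) • S.vec (S.g i * S.Gam) A β := by
    unfold Setup.MM
    rw [← Finset.sum_sub_distrib]
    refine Finset.sum_congr rfl fun i _ => ?_
    rw [← Finset.sum_sub_distrib]
    refine Finset.sum_congr rfl fun A _ => ?_
    rw [← sub_smul]
    congr 1
    rw [PiLp.sub_apply]
    push_cast
    ring
  rw [e, Finset.sum_mul]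
  refine (norm_sum_le _ _).trans (Finset.sum_le_sum fun i _ => ?_)
  rw [Finset.sum_mul]
  refine (norm_sum_le _ _).trans (Finset.sum_le_sum fun A _ => ?_)
  rw [norm_smul, Complex.norm_real, Real.norm_eq_abs, abs_mul]
  have h1 : |(x - y) (i, A)| ≤ ‖x - y‖ := by
    have := PiLp.norm_apply_le (x - y) (i, A)
    rwa [Real.norm_eq_abs] at this
  have h2 : 0 ≤ |aw i| * ‖S.vec (S.g i * S.Gam) A β‖ := by positivity
  calc |aw i| * |(x - y) (i, A)| * ‖S.vec (S.g i * S.Gam) A β‖
      = (|aw i| * ‖S.vec (S.g i * S.Gam) A β‖) * |(x - y) (i, A)| := by ring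
    _ ≤ _ := mul_le_mul_of_nonneg_left h1 h2

lemma vec_symm (i : Fin 9) (A : Fin r) (β : Fin 16) (v w : K) :
    inner ℂ (S.vec (S.g i) A β v) w = inner ℂ v (S.vec (S.g i) A β w) := by
  simp only [CS.vec, _root_.sum_apply, _root_.smul_apply, sum_inner, inner_sum, inner_smul_left,
    inner_smul_right, S.th_sa]
  refine Finset.sum_congr rfl fun α _ => ?_
  congr 1
  rw [Complex.conj_eq_iff_im]
  exact S.g_real i β α

lemma locInt_op {A : Cfg r → K →L[ℂ] K} (hA : Continuous A) {f : Cfg r → K}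
    (hf : LocallyIntegrable f volume) : LocallyIntegrable (fun x => A x (f x)) volume := by
  rw [locallyIntegrable_iff]
  intro k hk
  obtain ⟨C, hC⟩ := hk.exists_bound_of_continuousOn hA.continuousOn
  refine ((hf.integrableOn_isCompact hk).norm.const_mul C).mono'
    (continuous_apply_clm hA hf.aestronglyMeasurable).restrict ?_
  refine (ae_restrict_iff' hk.measurableSet).2 (Eventually.of_forall fun x hx => ?_)
  exact ((A x).le_opNorm _).trans (mul_le_mul_of_nonneg_right (hC x hx) (norm_nonneg _))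

/-- the mollified equation -/
lemma FD_mo [CompleteSpace K] {ρ : Cfg r → ℝ} (hρ : ContDiff ℝ ∞ ρ) (hc : HasCompactSupport ρ)
    (β : Fin 16) {u v : Cfg r → K} (hu : LocallyIntegrable u volume)
    (hv : LocallyIntegrable v volume) (hw : S.wF ∅ β u v) (x : Cfg r) :
    S.FD β (mo ρ u) x = mo ρ v x + ∫ t, ρ (x - t) • (S.MM β x - S.MM β t) (u t) := by
  have hMc : Continuous (S.MM β) := (S.esa_contDiff_MM β).continuous
  have hMu : LocallyIntegrable (fun t => S.MM β t (u t)) volume := locInt_op hMc hu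
  have i1 : ∀ i A, Integrable (fun y => pdr i A ρ (x - y) • u y) := fun i A =>
    integrable_mo (esa_pdr_smooth hρ i A).continuous
      (hc.fderiv_apply (𝕜 := ℝ) (EuclideanSpace.single (i, A) (1 : ℝ) : (Cfg r))) hu x
  have i2 : Integrable (fun y => ρ (x - y) • u y) := integrable_mo hρ.continuous hc hu x
  have i3 : Integrable (fun y => ρ (x - y) • S.MM β y (u y)) := integrable_mo hρ.continuous hc hMu x
  have i4 : Integrable (fun y => ρ (x - y) • S.MM β x (u y)) := by
    have := (S.MM β x).integrable_comp i2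
    refine this.congr (Eventually.of_forall fun y => ?_)
    simp only [← Complex.coe_smul (E := K), map_smul]
  have i5 : Integrable (fun y => (-Complex.I) • ∑ i, ∑ A, S.vec (S.g i) A β (pdr i A ρ (x - y) • u y)) :=
    (integrable_finsetSum _ fun i _ => integrable_finsetSum _ fun A _ =>
      (S.vec (S.g i) A β).integrable_comp (i1 i A)).smul (-Complex.I)
  have eL : S.Q0 β (mo ρ u) x =
      ∫ y, (-Complex.I) • ∑ i, ∑ A, S.vec (S.g i) A β (pdr i A ρ (x - y) • u y) := by
    rw [integral_smul, integral_finsetSum _ fun i _ => integrable_finsetSum _ fun A _ =>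
      (S.vec (S.g i) A β).integrable_comp (i1 i A), Setup.Q0]
    congr 1
    refine Finset.sum_congr rfl fun i _ => ?_
    rw [integral_finsetSum _ fun A _ => (S.vec (S.g i) A β).integrable_comp (i1 i A)]
    refine Finset.sum_congr rfl fun A _ => ?_
    rw [(S.vec (S.g i) A β).integral_comp_comm (i1 i A), Moll.pd_mo hρ hc hu]
    rfl
  have eM : S.MM β x (mo ρ u x) = ∫ y, ρ (x - y) • S.MM β x (u y) := by
    unfold mo
    rw [← (S.MM β x).integral_comp_comm i2]
    refine integral_congr_ae (Eventually.of_forall fun y => ?_)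
    simp only [← Complex.coe_smul (E := K), map_smul]
  have eE : (∫ t, ρ (x - t) • (S.MM β x - S.MM β t) (u t)) =
      (∫ y, ρ (x - y) • S.MM β x (u y)) - ∫ y, ρ (x - y) • S.MM β y (u y) := by
    rw [← integral_sub i4 i3]
    refine integral_congr_ae (Eventually.of_forall fun y => ?_)
    simp only [_root_.sub_apply, smul_sub]
  have key : (∫ y, (-Complex.I) • ∑ i, ∑ A, S.vec (S.g i) A β (pdr i A ρ (x - y) • u y)) +
      ∫ y, ρ (x - y) • S.MM β y (u y) = mo ρ v x := by
    have i6 : Integrable (fun y => (-Complex.I) • ∑ i, ∑ A, S.vec (S.g i) A β (pdr i A ρ (x - y) • u y) +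
      ρ (x - y) • S.MM β y (u y)) := i5.add i3
    rw [← integral_add i5 i3]
    refine ext_inner_left ℂ fun w => ?_
    rw [← integral_inner i6, inner_mo hρ.continuous hc hv]
    have h1 := hw (tz ρ x w) ⟨Tst_tz hρ hc x w, by simp [Coll]⟩
    have e2 : ∀ y, inner ℂ (tz ρ x w y) (v y) = ((ρ (x - y) : ℝ) : ℂ) * inner ℂ w (v y) := fun y => by
      rw [tz, inner_smul_left, Complex.conj_ofReal]
    simp only [e2] at h1
    rw [← h1]
    refine integral_congr_ae (Eventually.of_forall fun y => ?_)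
    have e1 : ∀ i A, pd i A (tz ρ x w) y = -((((pdr i A ρ (x - y)) : ℝ) : ℂ) • w) :=
      fun i A => pd_tz hρ x w i A y
    simp only [Setup.FD, Setup.Q0, e1, tz, ← Complex.coe_smul (E := K), map_smul, map_neg,
      inner_add_left, inner_add_right, inner_smul_left, inner_smul_right, sum_inner, inner_sum,
      inner_neg_left, Complex.conj_ofReal, Complex.conj_I, vec_symm, S.esa_MM_symm]
    congr 1
    simp only [Finset.mul_sum, neg_neg, mul_neg, neg_mul]
  rw [Setup.FD, eL, eM, eE, ← key]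
  abel

/-- multiplication by a cutoff -/
lemma nsq_rad_le {h : ℝ → ℝ} (hh : ContDiff ℝ ∞ h) (h0 : ∀ x : Cfg r, 0 ≤ rad h x)
    (h1 : ∀ x : Cfg r, rad h x ≤ 1) {f : Cfg r → K} (hf : MemLp f 2 (volume : Measure (Cfg r))) :
    MemLp (fun x => ((rad h x : ℝ) : ℂ) • f x) 2 (volume : Measure (Cfg r)) ∧
    nsq (fun x => ((rad h x : ℝ) : ℂ) • f x) ≤ nsq f := by
  have hA : Continuous (fun x : Cfg r => ((rad h x : ℝ) : ℂ) • (1 : K →L[ℂ] K)) :=
    (Complex.continuous_ofReal.comp (contDiff_rad hh).continuous).smul continuous_const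
  have hC : ∀ x : Cfg r, ‖((rad h x : ℝ) : ℂ) • (1 : K →L[ℂ] K)‖ ≤ 1 := by
    intro x
    rw [norm_smul, Complex.norm_real, Real.norm_of_nonneg (h0 x)]
    calc rad h x * ‖(1 : K →L[ℂ] K)‖ ≤ 1 * 1 := by
          refine mul_le_mul (h1 x) ?_ (norm_nonneg _) zero_le_one
          exact ContinuousLinearMap.norm_id_le
      _ = 1 := one_mul _
  have e1 := memLp_op hA hC hf
  have e2 := nsq_op_le hC hf
  rw [one_pow, one_mul] at e2
  exact ⟨e1, e2⟩

lemma mo_approx_fin [CompleteSpace K] (B : Finset (Fin 16)) {v : Fin 16 → Cfg r → K}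
    (hv : ∀ β ∈ B, MemLp (v β) 2 (volume : Measure (Cfg r))) {δ : ℝ} (hδ : 0 < δ) :
    ∃ ε₀ > 0, ∀ ε, ε ≤ ε₀ → ∀ ρ, IsMol ε ρ → ∀ β ∈ B, nsq (fun x => mo ρ (v β) x - v β x) ≤ δ := by
  classical
  induction B using Finset.induction_on with
  | empty => exact ⟨1, one_pos, fun ε _ ρ _ β hβ => absurd hβ (Finset.notMem_empty β)⟩
  | insert b B hb ih =>
    obtain ⟨ε₁, h1, h1'⟩ := ih fun β hβ => hv β (Finset.mem_insert_of_mem hβ)
    obtain ⟨ε₂, h2, h2'⟩ := mo_approx (hv b (Finset.mem_insert_self _ _)) hδ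
    refine ⟨min ε₁ ε₂, lt_min h1 h2, fun ε hε ρ hρ β hβ => ?_⟩
    rcases Finset.mem_insert.1 hβ with h | h
    · rw [h]
      exact h2' ε (hε.trans (min_le_right _ _)) ρ hρ
    · exact h1' ε (hε.trans (min_le_left _ _)) ρ hρ β h

/-- **F-Str** -/
theorem str [CompleteSpace K] (S : Setup r K) : StrStmt S := by
  intro B u v hu hv hw
  obtain ⟨κ, hκ0, hκ⟩ := exists_rc
  have hch : ∀ n : ℕ, ∃ h : ℝ → ℝ, IsRC κ ((n : ℝ) + 1) h := fun n => hκ _ (by positivity)
  choose h hh using hch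
  have hmol : ∀ n : ℕ, ∃ ρ : Cfg r → ℝ, ∃ ε : ℝ, 0 < ε ∧ ε ≤ 1 / ((n : ℝ) + 1) ∧ IsMol ε ρ ∧
      nsq (fun x => mo ρ u x - u x) ≤ 1 / ((n : ℝ) + 1) ∧
      ∀ β ∈ B, nsq (fun x => mo ρ (v β) x - v β x) ≤ 1 / ((n : ℝ) + 1) := by
    intro n
    have hp : (0 : ℝ) < 1 / ((n : ℝ) + 1) := by positivity
    obtain ⟨ε₁, h1, h1'⟩ := mo_approx hu hp
    obtain ⟨ε₂, h2, h2'⟩ := mo_approx_fin B hv hp
    obtain ⟨ε, hε⟩ : ∃ ε : ℝ, ε = min (min ε₁ ε₂) (1 / ((n : ℝ) + 1)) := ⟨_, rfl⟩
    have hε0 : 0 < ε := hε ▸ lt_min (lt_min h1 h2) hp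
    obtain ⟨g, -, hg⟩ := exists_mol (dc := r) hε0
    refine ⟨rad g, ε, hε0, hε ▸ min_le_right _ _, hg, h1' ε ?_ _ hg, h2' ε ?_ _ hg⟩
    · exact hε ▸ (min_le_left _ _).trans (min_le_left _ _)
    · exact hε ▸ (min_le_left _ _).trans (min_le_right _ _)
  choose ρ ε hε0 hε hρ hρu hρv using hmol
  have hn0 : ∀ n : ℕ, (0 : ℝ) < (n : ℝ) + 1 := fun n => by positivity
  have hlim1 : Tendsto (fun n : ℕ => 1 / ((n : ℝ) + 1)) atTop (𝓝 0) :=
    tendsto_one_div_add_atTop_nhds_zero_nat
  have hmu : ∀ n, MemLp (mo (ρ n) u) 2 (volume : Measure (Cfg r)) := fun n => (nsq_mo_le (hρ n) hu).1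
  have hms : ∀ n, ContDiff ℝ ∞ (mo (ρ n) u) := fun n => contDiff_mo (hρ n).contDiff (hρ n).hcs (locInt hu)
  set w : ℕ → Cfg r → K := fun n x => ((rad (h n) x : ℝ) : ℂ) • mo (ρ n) u x with hwdef
  have hT : ∀ n, Setup.Tst (w n) := by
    intro n
    refine ⟨(Setup.contDiff_ofReal (contDiff_rad (hh n).contDiff)).smul (hms n), ?_⟩
    refine HasCompactSupport.intro (isCompact_closedBall (0 : Cfg r) ((n : ℝ) + 1)) fun x hx => ?_
    rw [Metric.mem_closedBall, dist_zero_right, not_le] at hx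
    simp only [hwdef]
    rw [(hh n).zero x hx.le, Complex.ofReal_zero, zero_smul]
  refine ⟨w, hT, ⟨fun n => (hT n).memLp, hu, ?_⟩, fun β hβ => ?_⟩
  · have hb : ∀ n, nsq (fun x => w n x - u x) ≤ 2 * (1 / ((n : ℝ) + 1)) +
        2 * nsq (fun x => ((rad (h n) x : ℝ) : ℂ) • u x - u x) := by
      intro n
      have m1 := nsq_rad_le (hh n).contDiff (hh n).nonneg (hh n).le_one ((hmu n).sub hu)
      have m2 := nsq_rad_le (hh n).contDiff (hh n).nonneg (hh n).le_one hu
      have e1 := nsq_add_le m1.1 (m2.1.sub hu)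
      have e2 : (fun x => w n x - u x) = fun x => ((rad (h n) x : ℝ) : ℂ) • (mo (ρ n) u - u) x +
          ((fun x => ((rad (h n) x : ℝ) : ℂ) • u x) - u) x := by
        funext x
        simp only [hwdef, Pi.sub_apply, smul_sub]
        abel
      rw [e2]
      refine e1.trans (add_le_add ?_ le_rfl)
      exact mul_le_mul_of_nonneg_left (m1.2.trans (hρu n)) (by norm_num)
    refine squeeze_zero (fun n => nsq_nonneg _) hb ?_
    have := (hlim1.const_mul 2).add ((cut_tendsto hu hh).const_mul 2)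
    simpa using this
  · have hvβ := hv β hβ
    obtain ⟨C, hC0, hC⟩ := MM_lip S β
    -- error of the mollification
    set E : ℕ → Cfg r → K := fun n x => ∫ t, ρ n (x - t) • (S.MM β x - S.MM β t) (u t) with hE
    have hEe : ∀ n, E n = fun x => S.FD β (mo (ρ n) u) x - mo (ρ n) (v β) x := by
      intro n
      funext x
      rw [FD_mo S (hρ n).contDiff (hρ n).hcs β (locInt hu) (locInt hvβ) (hw β hβ) x]
      simp only [hE]
      abel
    have hEm : ∀ n, AEStronglyMeasurable (E n) volume := by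
      intro n
      rw [hEe n]
      exact ((contDiff_FD S (hms n) β).continuous.sub
        (contDiff_mo (hρ n).contDiff (hρ n).hcs (locInt hvβ)).continuous).aestronglyMeasurable
    have hEb : ∀ n x, ‖E n x‖ ≤ (C * (1 / ((n : ℝ) + 1))) * mo (ρ n) (fun t => ‖u t‖) x := by
      intro n x
      have hi : Integrable (fun t => ρ n (x - t) • ‖u t‖) :=
        integrable_mo (hρ n).contDiff.continuous (hρ n).hcs (fun z => (locInt hu z).norm) x
      have e : (C * (1 / ((n : ℝ) + 1))) * mo (ρ n) (fun t => ‖u t‖) x =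
          ∫ t, (C * (1 / ((n : ℝ) + 1))) * (ρ n (x - t) • ‖u t‖) := by
        rw [integral_const_mul]; rfl
      rw [e]
      refine norm_integral_le_of_norm_le (hi.const_mul _) (Eventually.of_forall fun t => ?_)
      rw [norm_smul, Real.norm_of_nonneg ((hρ n).nonneg _), smul_eq_mul]
      by_cases h1 : ε n ≤ ‖x - t‖
      · rw [(hρ n).supp _ h1]; simp
      · rw [not_le] at h1
        have h2 : ‖(S.MM β x - S.MM β t) (u t)‖ ≤ (C * (1 / ((n : ℝ) + 1))) * ‖u t‖ := by
          refine ((S.MM β x - S.MM β t).le_opNorm _).trans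
            (mul_le_mul_of_nonneg_right ?_ (norm_nonneg _))
          exact (hC x t).trans (mul_le_mul_of_nonneg_left (h1.le.trans (hε n)) hC0)
        calc ρ n (x - t) * ‖(S.MM β x - S.MM β t) (u t)‖
            ≤ ρ n (x - t) * ((C * (1 / ((n : ℝ) + 1))) * ‖u t‖) :=
              mul_le_mul_of_nonneg_left h2 ((hρ n).nonneg _)
          _ = _ := by ring
    have hEn := fun n => nsq_le_mo (hρ n) hu (hEm n) (hEb n)
    -- cutoff error
    have hDc : ∀ n, Continuous (fun x => S.esaD (rad (h n)) β x) := fun n =>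
      (S.esa_contDiff_D (contDiff_rad (hh n).contDiff) β).continuous
    have hDb : ∀ n x, ‖S.esaD (rad (h n)) β x‖ ≤ κ / ((n : ℝ) + 1) * S.esaC β := fun n x =>
      D_norm S (fun j A y => (hh n).grad j A y) β x
    have hDn : ∀ n, MemLp (fun x => S.esaD (rad (h n)) β x (mo (ρ n) u x)) 2
        (volume : Measure (Cfg r)) ∧ nsq (fun x => S.esaD (rad (h n)) β x (mo (ρ n) u x)) ≤
        (κ / ((n : ℝ) + 1) * S.esaC β) ^ 2 * nsq u := by
      intro n
      refine ⟨memLp_op (hDc n) (hDb n) (hmu n), (nsq_op_le (hDb n) (hmu n)).trans ?_⟩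
      exact mul_le_mul_of_nonneg_left (nsq_mo_le (hρ n) hu).2 (sq_nonneg _)
    have hb : ∀ n, nsq (fun x => S.FD β (w n) x - v β x) ≤ 2 * (1 / ((n : ℝ) + 1)) +
        (4 * nsq (fun x => ((rad (h n) x : ℝ) : ℂ) • v β x - v β x) +
        (8 * ((C * (1 / ((n : ℝ) + 1))) ^ 2 * nsq u) +
          8 * ((κ / ((n : ℝ) + 1) * S.esaC β) ^ 2 * nsq u))) := by
      intro n
      have m1 := nsq_rad_le (hh n).contDiff (hh n).nonneg (hh n).le_one
        ((nsq_mo_le (hρ n) hvβ).1.sub hvβ)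
      have m2 := (nsq_rad_le (hh n).contDiff (hh n).nonneg (hh n).le_one hvβ).1.sub hvβ
      have m3 := nsq_rad_le (hh n).contDiff (hh n).nonneg (hh n).le_one (hEn n).1
      have m4 := (hDn n).1.neg
      have e2 : (fun x => S.FD β (w n) x - v β x) =
          fun x => ((rad (h n) x : ℝ) : ℂ) • (mo (ρ n) (v β) - v β) x +
          (((fun x => ((rad (h n) x : ℝ) : ℂ) • v β x) - v β) x +
          (((rad (h n) x : ℝ) : ℂ) • E n x +
            (-(fun x => S.esaD (rad (h n)) β x (mo (ρ n) u x))) x)) := by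
        funext x
        have e3 : S.FD β (w n) x = ((rad (h n) x : ℝ) : ℂ) • S.FD β (mo (ρ n) u) x -
            S.esaD (rad (h n)) β x (mo (ρ n) u x) :=
          FD_smul S β (rad (h n)) (mo (ρ n) u) x
            ((contDiff_rad (hh n).contDiff).differentiable (by simp) x)
            ((hms n).differentiable (by simp) x)
        have e4 : S.FD β (mo (ρ n) u) x = mo (ρ n) (v β) x + E n x := by
          rw [congrFun (hEe n) x]
          exact (add_sub_cancel (mo (ρ n) (v β) x) (S.FD β (mo (ρ n) u) x)).symm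
        rw [e3, e4]
        simp only [Pi.sub_apply, Pi.neg_apply, smul_sub, smul_add]
        abel
      rw [e2]
      have b3 := nsq_add_le m3.1 m4
      have b2 := nsq_add_le m2 (m3.1.add m4)
      have b1 := nsq_add_le m1.1 (m2.add (m3.1.add m4))
      have c4 : nsq (-(fun x => S.esaD (rad (h n)) β x (mo (ρ n) u x))) =
          nsq (fun x => S.esaD (rad (h n)) β x (mo (ρ n) u x)) := by
        simp [nsq]
      have c1 := m1.2.trans (hρv n β hβ)
      have c3 := m3.2.trans (hEn n).2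
      have c5 := (hDn n).2
      rw [c4] at b3
      refine b1.trans ?_
      have b2' : nsq ((((fun x => ((rad (h n) x : ℝ) : ℂ) • v β x) - v β) +
        ((fun x => ((rad (h n) x : ℝ) : ℂ) • E n x) +
        -fun x => S.esaD (rad (h n)) β x (mo (ρ n) u x)))) ≤ _ := b2
      have b3' : nsq ((fun x => ((rad (h n) x : ℝ) : ℂ) • E n x) +
        -fun x => S.esaD (rad (h n)) β x (mo (ρ n) u x)) ≤ _ := b3
      have c2 : nsq ((fun x => ((rad (h n) x : ℝ) : ℂ) • v β x) - v β) =
        nsq (fun x => ((rad (h n) x : ℝ) : ℂ) • v β x - v β x) := rfl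
      linarith
    refine ⟨fun n => (Tst_FD S (hT n) β).memLp, hvβ, squeeze_zero (fun n => nsq_nonneg _) hb ?_⟩
    have hl2 : Tendsto (fun n : ℕ => (C * (1 / ((n : ℝ) + 1))) ^ 2 * nsq u) atTop (𝓝 0) := by
      have := ((hlim1.const_mul C).pow 2).mul_const (nsq u)
      simpa using this
    have hl3 : Tendsto (fun n : ℕ => (κ / ((n : ℝ) + 1) * S.esaC β) ^ 2 * nsq u) atTop (𝓝 0) := by
      have h1 : ∀ n : ℕ, (κ / ((n : ℝ) + 1) * S.esaC β) ^ 2 * nsq u =
          (κ * S.esaC β * (1 / ((n : ℝ) + 1))) ^ 2 * nsq u := fun n => by ring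
      simp only [h1]
      have := ((hlim1.const_mul (κ * S.esaC β)).pow 2).mul_const (nsq u)
      simpa using this
    have := (hlim1.const_mul 2).add (((cut_tendsto hvβ hh).const_mul 4).add
      ((hl2.const_mul 8).add (hl3.const_mul 8)))
    simpa using this

end Vale.Agent.P353.Z.AF
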