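import Vale.Agent.P353.AN.F.Stmt
import Vale.Agent.P353.Z.Ana

/-! # P353, all `N`, block F: cutoffs near the collision set (F-Cut, owner helper777) -/

open MeasureTheory Filter Topology
open scoped ContDiff

namespace Vale.Agent.P353.Z.AF

namespace CutAux

variable {r : ℕ}

/-- `y ↦ (∑_A l_A y_{iA})_{i<8}` -/
noncomputable def TL (l : Fin r → ℝ) : Cfg r →L[ℝ] EuclideanSpace ℝ (Fin 8) :=
  LinearMap.toContinuousLinearMap
    { toFun := fun y => WithLp.toLp 2 (fun i => ∑ A, l A * y (i.castSucc, A))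
      map_add' := by
        intro x y; ext i; simp [mul_add, Finset.sum_add_distrib]
      map_smul' := by
        intro c x; ext i; simp [Finset.mul_sum, mul_left_comm] }

lemma TL_apply (l : Fin r → ℝ) (y : Cfg r) (i : Fin 8) :
    TL l y i = ∑ A, l A * y (i.castSucc, A) := rfl

/-- the profile -/
noncomputable def psi (t : EuclideanSpace ℝ (Fin 8)) : ℝ := Real.smoothTransition (‖t‖ ^ 2 - 1)

lemma psi_smooth : ContDiff ℝ ∞ psi :=
  Real.smoothTransition.contDiff.comp ((contDiff_norm_sq ℝ).sub contDiff_const)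

lemma psi_nonneg (t : EuclideanSpace ℝ (Fin 8)) : 0 ≤ psi t := Real.smoothTransition.nonneg _

lemma psi_le_one (t : EuclideanSpace ℝ (Fin 8)) : psi t ≤ 1 := Real.smoothTransition.le_one _

lemma psi_eq_zero {t : EuclideanSpace ℝ (Fin 8)} (h : ‖t‖ ^ 2 ≤ 1) : psi t = 0 :=
  Real.smoothTransition.zero_of_nonpos (by linarith)

lemma psi_eq_one {t : EuclideanSpace ℝ (Fin 8)} (h : 2 ≤ ‖t‖ ^ 2) : psi t = 1 :=
  Real.smoothTransition.one_of_one_le (by linarith)

lemma psi_lip : ∃ K : ℝ, 0 ≤ K ∧ ∀ x y, |psi x - psi y| ≤ K * ‖x - y‖ := by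
  have h1 : ContDiff ℝ ∞ (fun t => psi t - 1) := psi_smooth.sub contDiff_const
  have h2 : HasCompactSupport (fun t => psi t - 1) := by
    refine HasCompactSupport.intro (isCompact_closedBall (0 : EuclideanSpace ℝ (Fin 8)) 2) ?_
    intro t ht
    have : 2 < ‖t‖ := by simpa using ht
    rw [psi_eq_one (by nlinarith), sub_self]
  obtain ⟨C, hC⟩ := ContDiff.lipschitzWith_of_hasCompactSupport h2 h1 (by simp)
  refine ⟨C, C.2, fun x y => ?_⟩
  have := hC.dist_le_mul x y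
  rwa [dist_sub_right, Real.dist_eq, dist_eq_norm] at this

lemma prod_lip {ι : Type*} (s : Finset ι) (a b : ι → ℝ) (ha : ∀ i ∈ s, 0 ≤ a i ∧ a i ≤ 1)
    (hb : ∀ i ∈ s, 0 ≤ b i ∧ b i ≤ 1) :
    |∏ i ∈ s, a i - ∏ i ∈ s, b i| ≤ ∑ i ∈ s, |a i - b i| := by
  classical
  induction s using Finset.induction_on with
  | empty => simp
  | insert i s his ih =>
    rw [Finset.prod_insert his, Finset.prod_insert his, Finset.sum_insert his]
    have e : a i * ∏ j ∈ s, a j - b i * ∏ j ∈ s, b j =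
        (a i - b i) * ∏ j ∈ s, a j + b i * (∏ j ∈ s, a j - ∏ j ∈ s, b j) := by ring
    have ha' : ∀ j ∈ s, 0 ≤ a j ∧ a j ≤ 1 := fun j hj => ha j (Finset.mem_insert_of_mem hj)
    have hb' : ∀ j ∈ s, 0 ≤ b j ∧ b j ≤ 1 := fun j hj => hb j (Finset.mem_insert_of_mem hj)
    rw [e]
    refine (abs_add_le _ _).trans (add_le_add ?_ ?_)
    · rw [abs_mul]
      refine mul_le_of_le_one_right (abs_nonneg _) ?_
      rw [abs_of_nonneg (Finset.prod_nonneg fun j hj => (ha' j hj).1)]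
      exact Finset.prod_le_one (fun j hj => (ha' j hj).1) (fun j hj => (ha' j hj).2)
    · rw [abs_mul]
      have h1 : |b i| ≤ 1 := by
        rw [abs_of_nonneg (hb i (Finset.mem_insert_self i s)).1]
        exact (hb i (Finset.mem_insert_self i s)).2
      exact (mul_le_of_le_one_left (abs_nonneg _) h1).trans (ih ha' hb')

/-- the cutoffs -/
noncomputable def eta (L : Finset (Fin r → ℝ)) (n : ℕ) (y : Cfg r) : ℝ :=
  ∏ l ∈ L, psi ((n : ℝ) • TL l y)

lemma eta_smooth (L : Finset (Fin r → ℝ)) (n : ℕ) : ContDiff ℝ ∞ (eta L n) := by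
  refine contDiff_prod fun l _ => ?_
  exact psi_smooth.comp ((TL l).contDiff.const_smul (n : ℝ))

lemma eta_mem (L : Finset (Fin r → ℝ)) (n : ℕ) (y : Cfg r) : 0 ≤ eta L n y ∧ eta L n y ≤ 1 :=
  ⟨Finset.prod_nonneg fun _ _ => psi_nonneg _,
    Finset.prod_le_one (fun _ _ => psi_nonneg _) fun _ _ => psi_le_one _⟩

lemma mem_Coll {L : Finset (Fin r → ℝ)} {y : Cfg r} : y ∈ Coll L ↔ ∃ l ∈ L, TL l y = 0 := by
  constructor
  · rintro ⟨l, hl, h⟩
    exact ⟨l, hl, by ext i; exact h i⟩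
  · rintro ⟨l, hl, h⟩
    refine ⟨l, hl, fun i => ?_⟩
    rw [← TL_apply, h]; rfl

lemma eta_disj (L : Finset (Fin r → ℝ)) (n : ℕ) : Disjoint (tsupport (eta L n)) (Coll L) := by
  rw [Set.disjoint_right]
  intro y hy
  obtain ⟨l, hl, h⟩ := mem_Coll.1 hy
  rw [notMem_tsupport_iff_eventuallyEq]
  have hc : Continuous fun z : Cfg r => ‖(n : ℝ) • TL l z‖ ^ 2 := by fun_prop
  have h0 : ‖(n : ℝ) • TL l y‖ ^ 2 < 1 := by rw [h]; simp
  filter_upwards [hc.continuousAt.eventually (gt_mem_nhds h0)] with z hz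
  exact Finset.prod_eq_zero hl (psi_eq_zero (le_of_lt hz))

lemma eta_ev (L : Finset (Fin r → ℝ)) {y : Cfg r} (hy : y ∉ Coll L) :
    ∀ᶠ n : ℕ in atTop, eta L n y = 1 := by
  have h : ∀ l ∈ L, ∀ᶠ n : ℕ in atTop, psi ((n : ℝ) • TL l y) = 1 := by
    intro l hl
    have h0 : TL l y ≠ 0 := fun h => hy (mem_Coll.2 ⟨l, hl, h⟩)
    have h1 : 0 < ‖TL l y‖ := norm_pos_iff.2 h0
    filter_upwards [tendsto_natCast_atTop_atTop.eventually_ge_atTop (2 / ‖TL l y‖)] with n hn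
    apply psi_eq_one
    have h2 : 2 ≤ (n : ℝ) * ‖TL l y‖ := by rwa [div_le_iff₀ h1] at hn
    rw [norm_smul, Real.norm_of_nonneg (Nat.cast_nonneg n)]
    nlinarith
  filter_upwards [(eventually_all_finset L).2 h] with n hn
  exact Finset.prod_eq_one fun l hl => hn l hl

lemma eta_lip (L : Finset (Fin r → ℝ)) : ∃ K : ℝ, 0 ≤ K ∧ ∀ (n : ℕ) (x y : Cfg r),
    |eta L n x - eta L n y| ≤ n * K * ‖x - y‖ := by
  obtain ⟨K, hK, hp⟩ := psi_lip
  refine ⟨K * ∑ l ∈ L, ‖TL l‖, by positivity, fun n x y => ?_⟩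
  refine (prod_lip L _ _ (fun _ _ => ⟨psi_nonneg _, psi_le_one _⟩)
    (fun _ _ => ⟨psi_nonneg _, psi_le_one _⟩)).trans ?_
  have : (n : ℝ) * (K * ∑ l ∈ L, ‖TL l‖) * ‖x - y‖ = ∑ l ∈ L, n * (K * ‖TL l‖) * ‖x - y‖ := by
    rw [Finset.mul_sum, Finset.mul_sum, Finset.sum_mul]
  rw [this]
  refine Finset.sum_le_sum fun l _ => (hp _ _).trans ?_
  rw [← smul_sub, ← map_sub, norm_smul, Real.norm_of_nonneg (Nat.cast_nonneg n)]
  have h1 := (TL l).le_opNorm (x - y)
  have h2 : (0 : ℝ) ≤ n := Nat.cast_nonneg n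
  calc K * (n * ‖TL l (x - y)‖) ≤ K * (n * (‖TL l‖ * ‖x - y‖)) := by gcongr
    _ = n * (K * ‖TL l‖) * ‖x - y‖ := by ring

/-- the bad set -/
def Bd (l : Fin r → ℝ) (n : ℕ) : Set (Cfg r) := {y | ‖(n : ℝ) • TL l y‖ ^ 2 ≤ 2}

lemma pdr_eta (L : Finset (Fin r → ℝ)) : ∃ K : ℝ, 0 ≤ K ∧ ∀ (n : ℕ) (i : Fin 9) (A : Fin r)
    (y : Cfg r), |pdr i A (eta L n) y| ≤ n * K := by
  obtain ⟨K, hK, h⟩ := eta_lip L
  refine ⟨K, hK, fun n i A y => ?_⟩
  have hl : LipschitzWith ⟨n * K, by positivity⟩ (eta L n) := by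
    refine LipschitzWith.of_dist_le_mul fun x y => ?_
    rw [Real.dist_eq, dist_eq_norm]
    exact h n x y
  have h1 : ‖fderiv ℝ (eta L n) y‖ ≤ n * K := norm_fderiv_le_of_lipschitz ℝ hl
  unfold pdr
  rw [← Real.norm_eq_abs]
  refine ((fderiv ℝ (eta L n) y).le_opNorm _).trans ?_
  rw [PiLp.norm_single, norm_one, mul_one]
  exact h1

lemma pdr_eta_zero (L : Finset (Fin r → ℝ)) (n : ℕ) (i : Fin 9) (A : Fin r)
    (y : Cfg r) (hy : ∀ l ∈ L, y ∉ Bd l n) : pdr i A (eta L n) y = 0 := by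
  have h : ∀ l ∈ L, ∀ᶠ z in 𝓝 y, psi ((n : ℝ) • TL l z) = 1 := by
    intro l hl
    have hc : Continuous fun z : Cfg r => ‖(n : ℝ) • TL l z‖ ^ 2 := by fun_prop
    have h0 : 2 < ‖(n : ℝ) • TL l y‖ ^ 2 := not_le.1 (hy l hl)
    filter_upwards [hc.continuousAt.eventually (lt_mem_nhds h0)] with z hz
    exact psi_eq_one (le_of_lt hz)
  have h2 : eta L n =ᶠ[𝓝 y] fun _ => (1 : ℝ) := by
    filter_upwards [(eventually_all_finset L).2 h] with z hz
    exact Finset.prod_eq_one fun l hl => hz l hl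
  unfold pdr
  rw [h2.fderiv_eq]
  simp

/-- replace the coordinates `(i, A0)`, `i < 8`, by `l(y_i)` -/
noncomputable def PhL (l : Fin r → ℝ) (A0 : Fin r) : Cfg r →ₗ[ℝ] Cfg r where
  toFun y := WithLp.toLp 2 (fun j => if j.2 = A0 ∧ j.1 ≠ Fin.last 8 then
    ∑ A, l A * y (j.1, A) else y j)
  map_add' x y := by
    ext j
    by_cases h : j.2 = A0 ∧ j.1 ≠ Fin.last 8
    · simp only [PiLp.add_apply, if_pos h, mul_add, Finset.sum_add_distrib]
    · simp only [PiLp.add_apply, if_neg h]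
  map_smul' c x := by
    ext j
    by_cases h : j.2 = A0 ∧ j.1 ≠ Fin.last 8
    · simp only [PiLp.smul_apply, if_pos h, smul_eq_mul, RingHom.id_apply, Finset.mul_sum]
      exact Finset.sum_congr rfl fun A _ => by ring
    · simp only [PiLp.smul_apply, if_neg h, RingHom.id_apply]

lemma PhL_apply (l : Fin r → ℝ) (A0 : Fin r) (y : Cfg r) (j : Fin 9 × Fin r) :
    PhL l A0 y j = if j.2 = A0 ∧ j.1 ≠ Fin.last 8 then ∑ A, l A * y (j.1, A) else y j := rfl

lemma PhL_det {l : Fin r → ℝ} {A0 : Fin r} (h : l A0 ≠ 0) : LinearMap.det (PhL l A0) ≠ 0 := by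
  have hinj : Function.Injective (PhL l A0) := by
    rw [injective_iff_map_eq_zero]
    intro y hy
    have h1 : ∀ i A, A ≠ A0 → y (i, A) = 0 := by
      intro i A hA
      have h2 : PhL l A0 y (i, A) = 0 := by rw [hy]; rfl
      rw [PhL_apply, if_neg (fun hh => hA hh.1)] at h2
      exact h2
    ext j
    obtain ⟨i, A⟩ := j
    by_cases hA : A = A0
    · subst hA
      have h2 : PhL l A y (i, A) = 0 := by rw [hy]; rfl
      by_cases hi : i = Fin.last 8
      · rw [PhL_apply, if_neg (fun hh => hh.2 hi)] at h2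
        exact h2
      · rw [PhL_apply, if_pos ⟨rfl, hi⟩, Finset.sum_eq_single A] at h2
        · exact (mul_eq_zero.1 h2).resolve_left h
        · intro B _ hB
          rw [h1 i B hB, mul_zero]
        · intro hh
          exact absurd (Finset.mem_univ A) hh
    · exact h1 i A hA
  have := LinearEquiv.isUnit_det' (LinearEquiv.ofInjectiveEndo (PhL l A0) hinj)
  have e : (LinearEquiv.ofInjectiveEndo (PhL l A0) hinj : Cfg r →ₗ[ℝ] Cfg r) = PhL l A0 := by
    ext; rfl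
  rw [e] at this
  exact this.ne_zero

lemma vol_Bd {l : Fin r → ℝ} (hl : l ≠ 0) {s : ℝ} (_hs : 0 < s) : ∃ C : ℝ, 0 ≤ C ∧ ∀ n : ℕ,
    1 ≤ n → (volume : Measure (Cfg r)).real (Metric.ball 0 s ∩ Bd l n) ≤ C * (1 / n) ^ 8 := by
  obtain ⟨A0, hA0⟩ := Function.ne_iff.1 hl
  have hA0' : l A0 ≠ 0 := by simpa using hA0
  have hdet := PhL_det (r := r) hA0'
  obtain ⟨s', hs'⟩ : ∃ s' : ℝ, s' = max s 2 := ⟨_, rfl⟩
  have hs1 : s ≤ s' := by rw [hs']; exact le_max_left _ _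
  have hs2 : 2 ≤ s' := by rw [hs']; exact le_max_right _ _
  refine ⟨|(LinearMap.det (PhL l A0))⁻¹| * ∏ _i : Fin 9, ∏ _A : Fin r, 2 * s', by positivity, ?_⟩
  intro n hn
  have hn0 : (0 : ℝ) < n := by exact_mod_cast hn
  let w : Fin 9 × Fin r → ℝ := fun j =>
    s' * (if j.2 = A0 then (if j.1 = Fin.last 8 then (1 : ℝ) else 1 / (n : ℝ)) else (1 : ℝ))
  have hw0 : ∀ j, 0 ≤ w j := fun j => by
    dsimp only [w]
    split_ifs <;> positivity
  let B : Set (Cfg r) := (@WithLp.ofLp 2 (Fin 9 × Fin r → ℝ)) ⁻¹' (Set.Icc (-w) w)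
  have hsub : Metric.ball 0 s ∩ Bd l n ⊆ PhL l A0 ⁻¹' B := by
    rintro y ⟨hy1, hy2⟩
    have hy3 : ‖y‖ < s := by simpa using hy1
    have hT : ‖TL l y‖ ≤ 2 / n := by
      have h1 : ‖(n : ℝ) • TL l y‖ ^ 2 ≤ 2 := hy2
      rw [norm_smul, Real.norm_of_nonneg hn0.le] at h1
      rw [le_div_iff₀ hn0]
      nlinarith [norm_nonneg (TL l y)]
    have hc : ∀ j, |PhL l A0 y j| ≤ w j := by
      rintro ⟨i, A⟩
      have hyj : |y (i, A)| ≤ s' := by
        have := PiLp.norm_apply_le y (i, A)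
        rw [Real.norm_eq_abs] at this
        linarith
      rw [PhL_apply]
      dsimp only [w]
      by_cases hA : A = A0
      · by_cases hi : i = Fin.last 8
        · rw [if_neg (fun hh => hh.2 hi), if_pos hA, if_pos hi, mul_one]
          exact hyj
        · rw [if_pos ⟨hA, hi⟩, if_pos hA, if_neg hi]
          obtain ⟨i', rfl⟩ := Fin.exists_castSucc_eq.2 hi
          rw [← TL_apply]
          have h1 := PiLp.norm_apply_le (TL l y) i'
          rw [Real.norm_eq_abs] at h1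
          calc |TL l y i'| ≤ 2 / n := h1.trans hT
            _ ≤ s' / n := by gcongr
            _ = s' * (1 / n) := by ring
      · rw [if_neg (fun hh => hA hh.1), if_neg hA, mul_one]
        exact hyj
    exact ⟨fun j => (abs_le.1 (hc j)).1, fun j => (abs_le.1 (hc j)).2⟩
  have hvB : (volume : Measure (Cfg r)) B = ENNReal.ofReal (∏ j, 2 * w j) := by
    rw [(PiLp.volume_preserving_ofLp (Fin 9 × Fin r)).measure_preimage
      measurableSet_Icc.nullMeasurableSet, Real.volume_Icc_pi,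
      ENNReal.ofReal_prod_of_nonneg fun j _ => by have := hw0 j; positivity]
    refine Finset.prod_congr rfl fun j _ => ?_
    rw [Pi.neg_apply, sub_neg_eq_add, ← two_mul]
  have hprod : ∏ j, 2 * w j = (∏ _i : Fin 9, ∏ _A : Fin r, 2 * s') * (1 / n) ^ 8 := by
    have h1 : ∀ j : Fin 9 × Fin r, 2 * w j =
        (2 * s') * (if j.2 = A0 then (if j.1 = Fin.last 8 then 1 else 1 / (n : ℝ)) else 1) := by
      intro j; simp only [w]; ring
    rw [Finset.prod_congr rfl fun j _ => h1 j, Finset.prod_mul_distrib, Fintype.prod_prod_type,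
      Fintype.prod_prod_type]
    congr 1
    have h2 : ∀ i : Fin 9, ∏ A : Fin r,
        (if A = A0 then (if i = Fin.last 8 then 1 else 1 / (n : ℝ)) else 1) =
        if i = Fin.last 8 then 1 else 1 / (n : ℝ) := by
      intro i
      rw [Finset.prod_ite_eq' Finset.univ A0 (fun _ => if i = Fin.last 8 then 1 else 1 / (n : ℝ)),
        if_pos (Finset.mem_univ _)]
    rw [Finset.prod_congr rfl fun i _ => h2 i, Fin.prod_univ_castSucc, if_pos rfl, mul_one,
      Finset.prod_congr rfl fun i _ => if_neg (Fin.castSucc_lt_last i).ne]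
    simp
  have hfin : (volume : Measure (Cfg r)) (PhL l A0 ⁻¹' B) = ENNReal.ofReal
      (|(LinearMap.det (PhL l A0))⁻¹| * ((∏ _i : Fin 9, ∏ _A : Fin r, 2 * s') * (1 / n) ^ 8)) := by
    rw [Measure.addHaar_preimage_linearMap _ hdet, hvB, hprod,
      ← ENNReal.ofReal_mul (abs_nonneg _)]
  have h0 : 0 ≤ |(LinearMap.det (PhL l A0))⁻¹| *
      ((∏ _i : Fin 9, ∏ _A : Fin r, 2 * s') * (1 / (n : ℝ)) ^ 8) := by positivity
  calc (volume : Measure (Cfg r)).real (Metric.ball 0 s ∩ Bd l n)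
      ≤ (volume : Measure (Cfg r)).real (PhL l A0 ⁻¹' B) :=
        measureReal_mono hsub (by rw [hfin]; exact ENNReal.ofReal_ne_top)
    _ = |(LinearMap.det (PhL l A0))⁻¹| *
      ((∏ _i : Fin 9, ∏ _A : Fin r, 2 * s') * (1 / n) ^ 8) := by
        rw [measureReal_def, hfin, ENNReal.toReal_ofReal h0]
    _ = _ := by ring

lemma ae_Coll {L : Finset (Fin r → ℝ)} (hL : ∀ l ∈ L, l ≠ 0) :
    ∀ᵐ y ∂(volume : Measure (Cfg r)), y ∉ Coll L := by
  have h : ∀ l ∈ L, ∀ᵐ y ∂(volume : Measure (Cfg r)), TL l y ≠ 0 := by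
    intro l hl
    have hk : LinearMap.ker (TL l).toLinearMap ≠ ⊤ := by
      intro hh
      apply hL l hl
      funext A
      have h1 : (EuclideanSpace.single ((0 : Fin 8).castSucc, A) (1 : ℝ) : Cfg r) ∈
          LinearMap.ker (TL l).toLinearMap := by rw [hh]; trivial
      have h2 : TL l (EuclideanSpace.single ((0 : Fin 8).castSucc, A) (1 : ℝ) : Cfg r) = 0 := h1
      have h3 := TL_apply l (EuclideanSpace.single ((0 : Fin 8).castSucc, A) (1 : ℝ) : Cfg r) 0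
      rw [h2] at h3
      rw [Finset.sum_eq_single A] at h3
      · simpa using h3.symm
      · intro B _ hB
        simp [hB]
      · intro hh
        exact absurd (Finset.mem_univ A) hh
    have := Measure.addHaar_submodule (volume : Measure (Cfg r)) _ hk
    rw [ae_iff]
    convert this using 2
    ext y
    simp
  filter_upwards [(ae_ball_iff L.countable_toSet).2 h] with y hy hc
  obtain ⟨l, hl, h0⟩ := mem_Coll.1 hc
  exact hy l hl h0

lemma energy (L : Finset (Fin r → ℝ)) (hL : ∀ l ∈ L, l ≠ 0) {s : ℝ} (hs : 0 < s) (i : Fin 9)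
    (A : Fin r) : Tendsto (fun n => ∫ y in Metric.ball (0 : Cfg r) s, pdr i A (eta L n) y ^ 2)
      atTop (𝓝 0) := by
  obtain ⟨K, hK, hb⟩ := pdr_eta L
  have hV : ∀ l : Fin r → ℝ, ∃ C : ℝ, l ≠ 0 → 0 ≤ C ∧ ∀ n : ℕ,
      1 ≤ n → (volume : Measure (Cfg r)).real (Metric.ball 0 s ∩ Bd l n) ≤ C * (1 / n) ^ 8 := by
    intro l
    by_cases h : l = 0
    · exact ⟨0, fun h' => absurd h h'⟩
    · obtain ⟨C, hC⟩ := vol_Bd h hs
      exact ⟨C, fun _ => hC⟩
  choose C hC using hV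
  have hbound : ∀ n : ℕ, 1 ≤ n → ∫ y in Metric.ball (0 : Cfg r) s, pdr i A (eta L n) y ^ 2 ≤
      (K ^ 2 * ∑ l ∈ L, C l) * (1 / n) ^ 6 := by
    intro n hn
    have hn0 : (0 : ℝ) < n := by exact_mod_cast hn
    have hG : ∫ y in Metric.ball (0 : Cfg r) s, pdr i A (eta L n) y ^ 2 =
        ∫ y in (⋃ l ∈ L, Metric.ball (0 : Cfg r) s ∩ Bd l n), pdr i A (eta L n) y ^ 2 := by
      refine setIntegral_eq_of_subset_of_forall_sdiff_eq_zero measurableSet_ball ?_ ?_
      · refine Set.iUnion₂_subset fun l _ => Set.inter_subset_left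
      · rintro y ⟨hy1, hy2⟩
        rw [pdr_eta_zero L n i A y, zero_pow two_ne_zero]
        intro l hl hy
        exact hy2 (Set.mem_iUnion₂.2 ⟨l, hl, hy1, hy⟩)
    have hfin : (volume : Measure (Cfg r)) (⋃ l ∈ L, Metric.ball (0 : Cfg r) s ∩ Bd l n) < ⊤ :=
      lt_of_le_of_lt (measure_mono (Set.iUnion₂_subset fun l _ => Set.inter_subset_left))
        measure_ball_lt_top
    have h1 : ‖∫ y in (⋃ l ∈ L, Metric.ball (0 : Cfg r) s ∩ Bd l n), pdr i A (eta L n) y ^ 2‖ ≤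
        (n * K) ^ 2 * (volume : Measure (Cfg r)).real
          (⋃ l ∈ L, Metric.ball (0 : Cfg r) s ∩ Bd l n) := by
      refine norm_setIntegral_le_of_norm_le_const hfin fun y _ => ?_
      rw [norm_pow, Real.norm_eq_abs]
      exact pow_le_pow_left₀ (abs_nonneg _) (hb n i A y) 2
    have h2 : (volume : Measure (Cfg r)).real (⋃ l ∈ L, Metric.ball (0 : Cfg r) s ∩ Bd l n) ≤
        ∑ l ∈ L, C l * (1 / n) ^ 8 :=
      (measureReal_biUnion_finset_le L _).trans
        (Finset.sum_le_sum fun l hl => (hC l (hL l hl)).2 n hn)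
    rw [hG]
    calc _ ≤ ‖∫ y in (⋃ l ∈ L, Metric.ball (0 : Cfg r) s ∩ Bd l n), pdr i A (eta L n) y ^ 2‖ :=
          le_trans (le_abs_self _) (le_of_eq (Real.norm_eq_abs _).symm)
      _ ≤ (n * K) ^ 2 * ∑ l ∈ L, C l * (1 / n) ^ 8 :=
          h1.trans (mul_le_mul_of_nonneg_left h2 (by positivity))
      _ = (K ^ 2 * ∑ l ∈ L, C l) * (1 / n) ^ 6 := by
          rw [← Finset.sum_mul]
          field_simp
  have hlim : Tendsto (fun n : ℕ => (K ^ 2 * ∑ l ∈ L, C l) * (1 / (n : ℝ)) ^ 6) atTop (𝓝 0) := by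
    have h1 : Tendsto (fun n : ℕ => (1 / (n : ℝ)) ^ 6) atTop (𝓝 (0 ^ 6)) :=
      tendsto_one_div_atTop_nhds_zero_nat.pow 6
    have h2 := h1.const_mul (K ^ 2 * ∑ l ∈ L, C l)
    simpa using h2
  refine squeeze_zero' (Eventually.of_forall fun n => ?_) ?_ hlim
  · exact integral_nonneg fun y => sq_nonneg _
  · filter_upwards [eventually_ge_atTop 1] with n hn
    exact hbound n hn

end CutAux

open CutAux in
/-- F-Cut -/
theorem cut (r : ℕ) : CutStmt r := by
  intro L hL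
  refine ⟨eta L, eta_smooth L, eta_mem L, eta_disj L, fun y hy => eta_ev L hy, ae_Coll hL, ?_⟩
  intro s hs
  have : Tendsto (fun n => ∑ i, ∑ A, ∫ y in Metric.ball (0 : Cfg r) s, pdr i A (eta L n) y ^ 2)
      atTop (𝓝 (∑ _i : Fin 9, ∑ _A : Fin r, (0 : ℝ))) :=
    tendsto_finsetSum _ fun i _ => tendsto_finsetSum _ fun A _ => energy L hL hs i A
  simpa using this

end Vale.Agent.P353.Z.AF
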