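import Vale.Agent.P353.AN.F.Stmt
import Vale.Agent.P353.Z.U.GamLem
import Vale.Agent.P353.Z.U.Vac
import Vale.Agent.P353.Z.Gamma

/-! # P353, all `N`, block F: the vacuum vectors of an irreducible module -/

open MeasureTheory Filter Topology
open scoped ContDiff Matrix

namespace Vale.Agent.P353.Z

variable {r : ℕ} {K : Type*} [NormedAddCommGroup K] [InnerProductSpace ℂ K]

namespace Setup

variable (S : Setup r K)

/-- the projection `½(1 - iΓ)` -/
noncomputable def vfPa : Matrix (Fin 16) (Fin 16) ℂ := (1 / 2 : ℂ) • (1 - Complex.I • S.Gam)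

/-- the projection `½(1 + iΓ)` -/
noncomputable def vfPb : Matrix (Fin 16) (Fin 16) ℂ := (1 / 2 : ℂ) • (1 + Complex.I • S.Gam)

lemma vf_am (A : Fin r) (α : Fin 16) : S.amF A α = (2 : ℂ) • S.vec S.vfPa A α := by
  unfold amF vfPa
  rw [S.vec_smul, S.vec_sub, S.vec_one, S.vec_smul, smul_smul]
  norm_num

lemma vf_iff (A : Fin r) (α : Fin 16) (v : K) : S.amF A α v = 0 ↔ S.vec S.vfPa A α v = 0 := by
  rw [vf_am, _root_.smul_apply, smul_eq_zero]
  exact ⟨fun h => h.resolve_left two_ne_zero, fun h => Or.inr h⟩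

lemma vf_Pa_transpose : S.vfPaᵀ = S.vfPb := by
  unfold vfPa vfPb
  rw [Matrix.transpose_smul, Matrix.transpose_sub, Matrix.transpose_smul, Matrix.transpose_one,
    S.Gam_transpose, smul_neg, sub_neg_eq_add]

lemma vf_Pb_transpose : S.vfPbᵀ = S.vfPa := by
  rw [← S.vf_Pa_transpose, Matrix.transpose_transpose]

lemma vf_Pa_add_Pb : S.vfPa + S.vfPb = 1 := by
  unfold vfPa vfPb
  module

lemma vf_IGam_sq : (Complex.I • S.Gam) * (Complex.I • S.Gam) = 1 := by
  rw [smul_mul_smul_comm, Complex.I_mul_I, S.Gam_sq, neg_smul, one_smul, neg_neg]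

lemma vf_Pa_sq : S.vfPa * S.vfPa = S.vfPa := by
  unfold vfPa
  rw [smul_mul_smul_comm]
  have : (1 - Complex.I • S.Gam) * (1 - Complex.I • S.Gam) =
      (2 : ℂ) • (1 - Complex.I • S.Gam) := by
    rw [sub_mul, one_mul, mul_sub, mul_one, S.vf_IGam_sq]
    module
  rw [this, smul_smul]
  norm_num

lemma vf_Pa_Pb : S.vfPa * S.vfPb = 0 := by
  unfold vfPa vfPb
  rw [smul_mul_smul_comm]
  have : (1 - Complex.I • S.Gam) * (1 + Complex.I • S.Gam) = 0 := by
    rw [sub_mul, one_mul, mul_add, mul_one, S.vf_IGam_sq]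
    abel
  rw [this, smul_zero]

/-- bilinears acting on a vector killed by all `a_α^A` -/
lemma vf_bil_vac {N : Matrix (Fin 16) (Fin 16) ℂ} (hN : N * S.Gam = S.Gam * N) {Ω : K}
    (hΩ : ∀ A α, S.amF A α Ω = 0) (D E : Fin r) :
    S.bil N D E Ω = if D = E then (N * S.vfPb).trace • Ω else 0 := by
  have hv : ∀ (M : Matrix (Fin 16) (Fin 16) ℂ) (C D' : Fin r),
      S.bil (M * S.vfPa) C D' Ω = 0 := by
    intro M C D'
    unfold CS.bil
    rw [_root_.sum_apply]
    refine Finset.sum_eq_zero fun α _ => ?_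
    rw [_root_.mul_apply_eq_comp, S.vec_mul, _root_.sum_apply]
    have : ∑ γ, (M α γ • S.vec S.vfPa D' γ) Ω = 0 := by
      refine Finset.sum_eq_zero fun γ _ => ?_
      rw [_root_.smul_apply, (S.vf_iff D' γ Ω).1 (hΩ D' γ), smul_zero]
    rw [this, map_zero]
  have hd : N = N * S.vfPa + N * S.vfPb := by
    rw [← mul_add, S.vf_Pa_add_Pb, mul_one]
  have hc : S.vfPa * Nᵀ = Nᵀ * S.vfPa := by
    have h1 : N * S.vfPb = S.vfPb * N := by
      unfold vfPb
      rw [Matrix.mul_smul, Matrix.smul_mul, mul_add, add_mul, Matrix.mul_smul, Matrix.smul_mul,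
        hN, mul_one, one_mul]
    have h2 := congrArg Matrix.transpose h1
    rw [Matrix.transpose_mul, Matrix.transpose_mul, S.vf_Pb_transpose] at h2
    exact h2
  have e1 : S.bil N D E Ω = S.bil (N * S.vfPb) D E Ω := by
    conv_lhs => rw [hd, S.bil_add, _root_.add_apply, hv, zero_add]
  rw [e1, S.bil_swap, _root_.sub_apply, Matrix.transpose_mul, S.vf_Pb_transpose,
    hc, hv, sub_zero]
  split_ifs
  · rfl
  · rfl

/-- the spin generators inside the blocks kill the vacuum -/
theorem vf_Skl {Ω : K} (hΩ : ∀ A α, S.amF A α Ω = 0) {k l : Fin 9} (h : Same k l) :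
    S.Skl k l Ω = 0 := by
  unfold Skl CS.tot
  rw [_root_.smul_apply, _root_.sum_apply]
  have htr : (S.g2 k l * S.vfPb).trace = 0 := by
    unfold vfPb
    rw [Matrix.mul_smul, mul_add, mul_one, Matrix.mul_smul, Matrix.trace_smul, Matrix.trace_add,
      Matrix.trace_smul, S.trace_g2]
    have : (S.g2 k l * S.Gam).trace = 0 := by
      unfold CS.g2 Gam
      rw [Matrix.smul_mul, Matrix.trace_smul, sub_mul, Matrix.trace_sub, ← mul_assoc, ← mul_assoc,
        ← mul_assoc, ← mul_assoc, S.trace_ggggg, S.trace_ggggg, sub_zero, smul_zero]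
    rw [this, smul_zero, add_zero, smul_zero]
  have : ∀ C ∈ Finset.univ, S.bil (S.g2 k l) C C Ω = 0 := by
    intro C _
    rw [S.vf_bil_vac (S.Gam_comm_g2 h) hΩ, if_pos rfl, htr, zero_smul]
  rw [Finset.sum_eq_zero this, smul_zero]

/-- the projection onto the coefficient vectors of the operators `a_α^A` -/
noncomputable def vfProj (w : Fin 16 × Fin r → ℂ) (p : Fin 16 × Fin r) : ℂ :=
  ∑ β, S.vfPa β p.1 * w (β, p.2)

/-- the isotropic subspace belonging to the operators `a_α^A` -/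
noncomputable def vfSub : Submodule ℂ (Fin 16 × Fin r → ℂ) where
  carrier := {z | S.vfProj z = z}
  add_mem' := by
    intro a b ha hb
    have h : S.vfProj (a + b) = S.vfProj a + S.vfProj b := by
      funext p
      simp only [vfProj, Pi.add_apply, mul_add, Finset.sum_add_distrib]
    change S.vfProj (a + b) = a + b
    rw [h, ha, hb]
  zero_mem' := by
    funext p
    simp only [vfProj, Pi.zero_apply, mul_zero, Finset.sum_const_zero]
  smul_mem' := by
    intro c a ha
    have h : S.vfProj (c • a) = c • S.vfProj a := by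
      funext p
      simp only [vfProj, Pi.smul_apply, smul_eq_mul, Finset.mul_sum]
      exact Finset.sum_congr rfl fun β _ => by ring
    change S.vfProj (c • a) = c • a
    rw [h, ha]

lemma vf_mem (w : Fin 16 × Fin r → ℂ) : S.vfProj w ∈ S.vfSub := by
  change S.vfProj (S.vfProj w) = S.vfProj w
  funext p
  have e : ∀ γ, ∑ β, S.vfPa γ β * S.vfPa β p.1 = S.vfPa γ p.1 := by
    intro γ
    rw [← Matrix.mul_apply, S.vf_Pa_sq]
  calc ∑ β, S.vfPa β p.1 * ∑ γ, S.vfPa γ β * w (γ, p.2)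
      = ∑ β, ∑ γ, (S.vfPa γ β * S.vfPa β p.1) * w (γ, p.2) := by
        simp only [Finset.mul_sum]
        exact Finset.sum_congr rfl fun β _ => Finset.sum_congr rfl fun γ _ => by ring
    _ = ∑ γ, (∑ β, S.vfPa γ β * S.vfPa β p.1) * w (γ, p.2) := by
        rw [Finset.sum_comm]
        simp only [Finset.sum_mul]
    _ = ∑ γ, S.vfPa γ p.1 * w (γ, p.2) := by simp only [e]

lemma vf_sum_proj (w : Fin 16 × Fin r → ℂ) (v : K) :
    ∑ p : Fin 16 × Fin r, S.vfProj w p • S.th p.1 p.2 v =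
      ∑ p : Fin 16 × Fin r, w p • S.vec S.vfPa p.2 p.1 v := by
  rw [Fintype.sum_prod_type_right, Fintype.sum_prod_type_right]
  refine Finset.sum_congr rfl fun A _ => ?_
  simp only [vfProj, Finset.sum_smul]
  rw [Finset.sum_comm]
  refine Finset.sum_congr rfl fun γ _ => ?_
  unfold CS.vec
  rw [_root_.sum_apply, Finset.smul_sum]
  refine Finset.sum_congr rfl fun β _ => ?_
  rw [_root_.smul_apply, smul_smul, mul_comm]

lemma vf_kill {v : K} (hv : ∀ A α, S.amF A α v = 0) {a : Fin 16 × Fin r → ℂ} (ha : a ∈ S.vfSub) :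
    ∑ p : Fin 16 × Fin r, a p • S.th p.1 p.2 v = 0 := by
  have ha' : S.vfProj a = a := ha
  have h := S.vf_sum_proj a v
  rw [ha'] at h
  rw [h]
  exact Finset.sum_eq_zero fun p _ => by rw [(S.vf_iff _ _ _).1 (hv _ _), smul_zero]

lemma vf_kill' {v : K}
    (hv : ∀ a ∈ S.vfSub, ∑ p : Fin 16 × Fin r, a p • S.th p.1 p.2 v = 0) (A : Fin r)
    (α : Fin 16) : S.amF A α v = 0 := by
  have h := hv _ (S.vf_mem (Pi.single (α, A) 1))
  rw [S.vf_sum_proj, Finset.sum_eq_single (α, A)] at h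
  · rw [Pi.single_eq_same, one_smul] at h
    exact (S.vf_iff _ _ _).2 h
  · intro p _ hp
    rw [Pi.single_eq_of_ne hp, zero_smul]
  · intro hp
    exact absurd (Finset.mem_univ _) hp

lemma vf_iso {a b : Fin 16 × Fin r → ℂ} (ha : a ∈ S.vfSub) (hb : b ∈ S.vfSub) :
    ∑ p, a p * b p = 0 := by
  have ha' : S.vfProj a = a := ha
  have hb' : S.vfProj b = b := hb
  rw [← ha', ← hb', Fintype.sum_prod_type_right]
  refine Finset.sum_eq_zero fun A _ => ?_
  unfold vfProj
  have e : ∀ β γ, ∑ α, S.vfPa β α * S.vfPa γ α = 0 := by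
    intro β γ
    have h := congrFun (congrFun S.vf_Pa_Pb β) γ
    rw [← S.vf_Pa_transpose, Matrix.mul_apply] at h
    simpa only [Matrix.transpose_apply, Matrix.zero_apply] using h
  simp only [Finset.sum_mul_sum]
  rw [Finset.sum_comm]
  refine Finset.sum_eq_zero fun β _ => ?_
  rw [Finset.sum_comm]
  refine Finset.sum_eq_zero fun γ _ => ?_
  calc ∑ α, S.vfPa β α * a (β, A) * (S.vfPa γ α * b (γ, A)) =
      ∑ α, (a (β, A) * b (γ, A)) * (S.vfPa β α * S.vfPa γ α) :=
        Finset.sum_congr rfl fun α _ => by ring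
    _ = 0 := by rw [← Finset.mul_sum, e, mul_zero]

lemma vf_conj_Pa (β α : Fin 16) : (starRingEnd ℂ) (S.vfPa β α) = S.vfPb β α := by
  have h1 : (starRingEnd ℂ) ((1 : Matrix (Fin 16) (Fin 16) ℂ) β α) =
      (1 : Matrix (Fin 16) (Fin 16) ℂ) β α := by
    rw [Matrix.one_apply]
    split_ifs <;> simp
  simp only [vfPa, vfPb, Matrix.smul_apply, Matrix.sub_apply, Matrix.add_apply, smul_eq_mul,
    map_mul, map_sub, Complex.conj_I, Complex.conj_eq_iff_im.2 (S.Gam_real β α), h1, map_div₀,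
    map_one, Complex.conj_ofNat]
  ring

lemma vf_decomp (z : Fin 16 × Fin r → ℂ) :
    ∃ a ∈ S.vfSub, ∃ b ∈ S.vfSub, z = a + fun p => (starRingEnd ℂ) (b p) := by
  refine ⟨S.vfProj z, S.vf_mem z, S.vfProj (fun p => (starRingEnd ℂ) (z p)), S.vf_mem _, ?_⟩
  funext p
  simp only [Pi.add_apply, vfProj, map_sum, map_mul, vf_conj_Pa, Complex.conj_conj]
  rw [← Finset.sum_add_distrib]
  have e : ∀ β, S.vfPa β p.1 * z (β, p.2) + S.vfPb β p.1 * z (β, p.2) =
      if β = p.1 then z (β, p.2) else 0 := by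
    intro β
    rw [← add_mul, ← Matrix.add_apply, S.vf_Pa_add_Pb, Matrix.one_apply]
    split_ifs <;> simp
  rw [Finset.sum_congr rfl fun β _ => e β, Finset.sum_ite_eq' Finset.univ p.1, if_pos
    (Finset.mem_univ _)]

end Setup

namespace AF

open Setup

/-- **F-Vac** -/
theorem vacF (S : Setup r K) : VacFStmt S := by
  intro hI hne
  obtain ⟨Ω, h1, h2, h3⟩ := U.vac S hI hne S.vfSub (fun a ha b hb => S.vf_iso ha hb) S.vf_decomp
  have h5 : ∀ A α, S.amF A α Ω = 0 := S.vf_kill' h2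
  exact ⟨Ω, h1, h5, fun k l h => S.vf_Skl h5 h, fun v hv => h3 v fun a ha => S.vf_kill hv ha⟩

/-- **F-Perm** -/
theorem perm (S : Setup r K) : PermStmt S := by
  intro O U hU hO w hw A α
  -- `U` intertwines `vec P` up to `O`
  have h1 : ∀ (P : Matrix (Fin 16) (Fin 16) ℂ) (B : Fin r) (β : Fin 16) (v : K),
      U (S.vec P B β v) = ∑ C, (O C B : ℂ) • S.vec P C β (U v) := by
    intro P B β v
    have e : ∀ γ, U (S.th γ B v) = ∑ C, (O C B : ℂ) • S.th γ C (U v) := by
      intro γ
      have h := congrArg (fun T : K →L[ℂ] K => T v) (hU γ B)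
      simpa only [_root_.mul_apply_eq_comp, _root_.sum_apply, _root_.smul_apply] using h
    simp only [CS.vec, _root_.sum_apply, _root_.smul_apply, map_sum, map_smul, e, Finset.smul_sum]
    rw [Finset.sum_comm]
    refine Finset.sum_congr rfl fun C _ => Finset.sum_congr rfl fun γ _ => ?_
    rw [smul_comm]
  -- invert with the transpose
  have h2 : ∀ (P : Matrix (Fin 16) (Fin 16) ℂ) (β : Fin 16) (v : K),
      S.vec P A β (U v) = ∑ B, (O A B : ℂ) • U (S.vec P B β v) := by
    intro P β v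
    simp only [h1, Finset.smul_sum, smul_smul]
    rw [Finset.sum_comm]
    have e : ∀ C, ∑ B, (O A B : ℂ) * (O C B : ℂ) = if A = C then 1 else 0 := by
      intro C
      have h := congrFun (congrFun hO A) C
      rw [Matrix.mul_apply, Matrix.one_apply] at h
      simp only [Matrix.transpose_apply] at h
      have h' := congrArg (fun t : ℝ => (t : ℂ)) h
      push_cast at h'
      rw [h']
      split_ifs <;> simp
    have e2 : ∀ C, ∑ B, ((O A B : ℂ) * (O C B : ℂ)) • S.vec P C β (U v) =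
        if A = C then S.vec P C β (U v) else 0 := by
      intro C
      rw [← Finset.sum_smul, e C]
      split_ifs <;> simp
    rw [Finset.sum_congr rfl fun C _ => e2 C, Finset.sum_ite_eq, if_pos (Finset.mem_univ _)]
  rw [vf_iff, h2]
  exact Finset.sum_eq_zero fun B _ => by rw [(S.vf_iff _ _ _).1 (hw _ _), map_zero, smul_zero]

end AF
end Vale.Agent.P353.Z
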