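import Vale.Agent.P353.AN.F.Res

/-! # P353, all `N`, block F: the Gaussian zero modes -/

open MeasureTheory Filter Topology
open scoped ContDiff

namespace Vale.Agent.P353.Z.AF

variable {r : ℕ} {K : Type*} [NormedAddCommGroup K] [InnerProductSpace ℂ K]

open Vale.Agent.P353.Z.Moll Vale.Agent.P353.Z.U.HB Vale.Agent.P353.Z.U.WS

lemma aw_ge (i : Fin 9) : 1 ≤ aw i := by
  unfold aw; split_ifs <;> norm_num

lemma gss_pos (x : Cfg r) : 0 < gss x := Real.exp_pos _

lemma contDiff_q : ContDiff ℝ ∞ (fun x : Cfg r => -(1 / 2 : ℝ) * ∑ i, ∑ A, aw i * x (i, A) ^ 2) :=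
  contDiff_const.mul (ContDiff.sum fun i _ => ContDiff.sum fun A _ =>
    contDiff_const.mul ((Setup.contDiff_coord (i, A)).pow 2))

lemma contDiff_gss : ContDiff ℝ ∞ (gss : Cfg r → ℝ) := contDiff_q.exp

lemma pdr_gss (i : Fin 9) (A : Fin r) (x : Cfg r) :
    pdr i A gss x = -(aw i * x (i, A)) * gss x := by
  have hc : ∀ p : Fin 9 × Fin r, HasFDerivAt (fun y : Cfg r => y p)
      (EuclideanSpace.proj p : Cfg r →L[ℝ] ℝ) x := fun p =>
    (EuclideanSpace.proj p : Cfg r →L[ℝ] ℝ).hasFDerivAt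
  have h1 : ∀ p : Fin 9 × Fin r, HasFDerivAt (fun y : Cfg r => aw p.1 * y p ^ 2)
      ((aw p.1 * (2 * x p)) • (EuclideanSpace.proj p : Cfg r →L[ℝ] ℝ)) x := by
    intro p
    have := ((hc p).pow 2).const_mul (aw p.1)
    refine this.congr_fderiv ?_
    ext v
    simp
    ring
  have h2 : HasFDerivAt (fun y : Cfg r => ∑ i, ∑ A, aw i * y (i, A) ^ 2)
      (∑ i, ∑ A, (aw i * (2 * x (i, A))) • (EuclideanSpace.proj (i, A) : Cfg r →L[ℝ] ℝ)) x :=
    HasFDerivAt.fun_sum fun i _ => HasFDerivAt.fun_sum fun A _ => h1 (i, A)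
  have h3 := (h2.const_mul (-(1 / 2 : ℝ))).exp
  have h4 : fderiv ℝ (gss : Cfg r → ℝ) x = _ := h3.fderiv
  unfold pdr
  rw [h4]
  have h5 : (∑ j, ∑ B, (aw j * (2 * x (j, B))) • (EuclideanSpace.proj (j, B) : Cfg r →L[ℝ] ℝ))
      (EuclideanSpace.single (i, A) (1 : ℝ)) = aw i * (2 * x (i, A)) := by
    simp only [_root_.sum_apply, _root_.smul_apply, smul_eq_mul]
    rw [Finset.sum_eq_single i, Finset.sum_eq_single A]
    · simp
    · intro B _ hB
      simp [hB]
    · intro h; exact absurd (Finset.mem_univ _) h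
    · intro j _ hj
      refine Finset.sum_eq_zero fun B _ => ?_
      simp [hj]
    · intro h; exact absurd (Finset.mem_univ _) h
  rw [_root_.smul_apply, _root_.smul_apply, h5]
  simp only [smul_eq_mul]
  unfold gss
  ring

/-- algebraic form of the vacuum condition -/
lemma vac_vec (S : Setup r K) {w : K} (hw : ∀ A α, S.amF A α w = 0) (i : Fin 9) (A : Fin r)
    (β : Fin 16) : Complex.I • S.vec (S.g i) A β w + S.vec (S.g i * S.Gam) A β w = 0 := by
  have h1 : ∀ γ, S.vec S.Gam A γ w = -(Complex.I • S.th γ A w) := by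
    intro γ
    have h2 := hw A γ
    rw [Setup.amF, _root_.sub_apply, _root_.smul_apply, sub_eq_zero] at h2
    rw [h2, smul_smul, Complex.I_mul_I, neg_one_smul, neg_neg]
  have h3 : S.vec (S.g i * S.Gam) A β w = ∑ γ, S.g i β γ • S.vec S.Gam A γ w := by
    simp only [CS.vec, _root_.sum_apply, _root_.smul_apply, Finset.smul_sum, Matrix.mul_apply,
      Finset.sum_smul, smul_smul]
    rw [Finset.sum_comm]
  have h4 : S.vec (S.g i) A β w = ∑ γ, S.g i β γ • S.th γ A w := by
    simp only [CS.vec, _root_.sum_apply, _root_.smul_apply]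
  rw [h3, h4, Finset.smul_sum, ← Finset.sum_add_distrib]
  simp only [h1]
  refine Finset.sum_eq_zero fun γ _ => ?_
  rw [smul_neg, smul_smul, smul_smul, mul_comm (S.g i β γ) Complex.I, add_neg_cancel]

lemma pd_gss (w : K) (i : Fin 9) (A : Fin r) (x : Cfg r) :
    pd i A (fun x : Cfg r => (gss x : ℂ) • w) x = ((-(aw i * x (i, A)) * gss x : ℝ) : ℂ) • w := by
  have h1 : DifferentiableAt ℝ (gss : Cfg r → ℝ) x := contDiff_gss.differentiable (by simp) x
  have h6 := pd_rsmul (i := i) (A := A) (φ := (gss : Cfg r → ℝ)) (u := fun _ => w) (x := x)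
    h1 (differentiableAt_const w)
  have h7 : pd i A (fun _ : (Cfg r) => w) x = 0 := by simp [pd]
  rw [h7, smul_zero, add_zero] at h6
  have h8 : pd i A (fun x : Cfg r => (gss x : ℂ) • w) x = _ := h6
  rw [h8]
  congr 2
  exact pdr_gss i A x

lemma FD_gss_eq (S : Setup r K) (w : K) (β : Fin 16) (x : Cfg r) :
    S.FD β (fun x => (gss x : ℂ) • w) x = ∑ i, ∑ A, ((aw i * x (i, A) * gss x : ℝ) : ℂ) •
      (Complex.I • S.vec (S.g i) A β w + S.vec (S.g i * S.Gam) A β w) := by
  rw [Setup.FD, Setup.Q0, Setup.MM]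
  simp only [pd_gss, map_smul, Finset.smul_sum, _root_.sum_apply, _root_.smul_apply]
  rw [← Finset.sum_add_distrib]
  refine Finset.sum_congr rfl fun i _ => ?_
  rw [← Finset.sum_add_distrib]
  refine Finset.sum_congr rfl fun A _ => ?_
  rw [smul_add, smul_smul, smul_smul, smul_smul]
  congr 2 <;> push_cast <;> ring

lemma FD_gss (S : Setup r K) {w : K} (hw : ∀ A α, S.amF A α w = 0) (β : Fin 16) (x : Cfg r) :
    S.FD β (fun x => (gss x : ℂ) • w) x = 0 := by
  rw [FD_gss_eq]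
  refine Finset.sum_eq_zero fun i _ => Finset.sum_eq_zero fun A _ => ?_
  rw [vac_vec S hw, smul_zero]

lemma sum_aw_ge (x : Cfg r) : ‖x‖ ^ 2 ≤ ∑ i, ∑ A, aw i * x (i, A) ^ 2 := by
  rw [EuclideanSpace.norm_sq_eq, Fintype.sum_prod_type]
  refine Finset.sum_le_sum fun i _ => Finset.sum_le_sum fun A _ => ?_
  rw [Real.norm_eq_abs, sq_abs]
  nlinarith [aw_ge i, sq_nonneg (x (i, A))]

lemma int_exp {c : ℝ} (hc : 0 < c) : Integrable fun x : (Cfg r) => Real.exp (-(c * ‖x‖ ^ 2)) := by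
  have := GaussianFourier.integrable_cexp_neg_mul_sq_norm_add (V := (Cfg r)) (b := (c : ℂ))
    (by simpa using hc) 0 0
  have h2 := this.re
  refine h2.congr (Eventually.of_forall fun x => ?_)
  simp only [inner_zero_left, Complex.ofReal_zero, mul_zero, add_zero]
  rw [show (-(c : ℂ) * (‖x‖ : ℂ) ^ 2) = ((-(c * ‖x‖ ^ 2) : ℝ) : ℂ) by push_cast; ring,
    ← Complex.ofReal_exp]
  exact Complex.ofReal_re _

lemma memLp_gss (w : K) : MemLp (fun x : Cfg r => (gss x : ℂ) • w) 2 (volume : Measure (Cfg r)) := by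
  have hm : AEStronglyMeasurable (fun x : Cfg r => (gss x : ℂ) • w) volume :=
    ((Complex.continuous_ofReal.comp contDiff_gss.continuous).smul
      continuous_const).aestronglyMeasurable
  refine (memLp_two_iff_integrable_sq_norm hm).mpr ?_
  refine ((int_exp (r := r) one_pos).mul_const (‖w‖ ^ 2)).mono' (hm.norm.pow 2)
    (Eventually.of_forall fun x => ?_)
  rw [Real.norm_of_nonneg (by positivity), norm_smul, Complex.norm_real,
    Real.norm_of_nonneg (gss_pos x).le, mul_pow]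
  refine mul_le_mul_of_nonneg_right ?_ (by positivity)
  unfold gss
  rw [← Real.exp_nat_mul]
  refine Real.exp_le_exp.2 ?_
  have := sum_aw_ge x
  push_cast
  linarith

theorem gssS (S : Setup r K) : GssStmt S := by
  intro w hw
  have hs : ContDiff ℝ ∞ (fun x : Cfg r => (gss x : ℂ) • w) :=
    (Setup.contDiff_ofReal contDiff_gss).smul contDiff_const
  refine ⟨hs, memLp_gss w, FD_gss S hw, fun L β ζ hζ => ?_⟩
  rw [FD_symm S β ζ _ hζ.1 hs]
  simp only [FD_gss S hw, inner_zero_right]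

end Vale.Agent.P353.Z.AF
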