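import Vale.Agent.P353.AN.F.Gss
import Vale.Agent.P353.Z.U.LOne
import Vale.Agent.P353.Z.U.Npos
import Vale.Agent.P353.Z.U.En
import Vale.Agent.P353.Z.U.Hes

/-! # P353, all `N`, block F: the joint kernel of the free supercharges -/

open MeasureTheory Filter Topology
open scoped ContDiff ComplexConjugate

namespace Vale.Agent.P353.Z.AF

variable {r : ℕ} {K : Type*} [NormedAddCommGroup K] [InnerProductSpace ℂ K]

open Vale.Agent.P353.Z.U

/-- `diag(aw)` as a linear map -/
noncomputable def Kd0 (r : ℕ) : Cfg r →ₗ[ℝ] Cfg r where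
  toFun x := WithLp.toLp 2 fun p => aw p.1 * x p
  map_add' x y := by
    ext p
    simp only [PiLp.add_apply]
    ring
  map_smul' c x := by
    ext p
    simp only [PiLp.smul_apply, smul_eq_mul, RingHom.id_apply]
    ring

/-- `diag(aw)` -/
noncomputable def Kd (r : ℕ) : Cfg r →L[ℝ] Cfg r := LinearMap.toContinuousLinearMap (Kd0 r)

lemma Kd_apply (x : Cfg r) (p : Fin 9 × Fin r) : Kd r x p = aw p.1 * x p := rfl

lemma inner_Kd (x : Cfg r) : inner ℝ (Kd r x) x = ∑ i, ∑ A, aw i * x (i, A) ^ 2 := by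
  rw [l1_inner_sum, Fintype.sum_prod_type]
  exact Finset.sum_congr rfl fun i _ => Finset.sum_congr rfl fun A _ => by rw [Kd_apply]; ring

variable (S : Setup r K)

lemma hq_zero (x : Cfg r) : 2 * S.hq 0 x = ∑ i, ∑ A, (aw i * x (i, A)) ^ 2 := by
  have hLF : ∀ A i j, S.LF 0 A i j x = 0 := by
    intro A i j
    simp [Setup.LF]
  unfold Setup.hq Setup.LG
  simp only [hLF, zero_add]
  have h1 : ∑ i : Fin 9, ∑ A, (aw i * x (i, A)) ^ 2 =
      (∑ k : Fin 3, ∑ A, (2 * x (Setup.c3 k, A)) ^ 2) +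
      ∑ i : Fin 9, ∑ A, (if i.val < 3 then 0 else x (i, A) ^ 2) := by
    simp [Fin.sum_univ_succ, Setup.c3, aw]
    ring
  rw [h1]
  have h2 : (∑ i : Fin 9, ∑ j : Fin 9, ∑ _A : Fin r, (if i.val < 3 ∧ j.val < 3 then (0 : ℝ) else 0 ^ 2)) = 0 :=
    Finset.sum_eq_zero fun i _ => Finset.sum_eq_zero fun j _ => Finset.sum_eq_zero fun A _ => by
      split_ifs <;> norm_num
  rw [h2]
  ring

lemma isK : S.IsK 0 (Kd r) where
  symm x y := by
    rw [l1_inner_sum, l1_inner_sum]
    exact Finset.sum_congr rfl fun p _ => by rw [Kd_apply, Kd_apply]; ring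
  pos x := by
    rw [real_inner_comm, inner_Kd]
    exact Finset.sum_nonneg fun i _ => Finset.sum_nonneg fun A _ =>
      mul_nonneg (by have := aw_ge i; linarith) (sq_nonneg _)
  sq x := by
    rw [hq_zero, EuclideanSpace.norm_sq_eq, Fintype.sum_prod_type]
    exact Finset.sum_congr rfl fun i _ => Finset.sum_congr rfl fun A _ => by
      rw [Kd_apply, Real.norm_eq_abs, sq_abs]

lemma Vm_zero : S.Vm 1 0 = 0 := by
  simp [Setup.Vm, Setup.V, Setup.FF, Setup.det3]

lemma Qlin_zero (β : Fin 16) (u : Cfg r → K) (x : Cfg r) : S.Qlin 0 β u x = S.FD β u x := by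
  have h : S.DW 0 β x = 0 := by simp [Setup.DW]
  rw [Setup.Qlin, h, _root_.zero_apply, add_zero]
  rfl

/-- a continuous function that is orthogonal to all test functions vanishes -/
lemma eq_zero_of_tst [CompleteSpace K] {h : Cfg r → K} (hc : Continuous h)
    (h0 : ∀ ζ, Setup.Tst ζ → ∫ x, inner ℂ (ζ x) (h x) = 0) : h = 0 := by
  have h1 : ∀ᵐ x ∂(volume : Measure (Cfg r)), h x = 0 := by
    refine ae_eq_zero_of_integral_contDiff_smul_eq_zero hc.locallyIntegrable fun g hg hgc => ?_
    have hi : Integrable (fun x => g x • h x) :=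
      (hg.continuous.smul hc).integrable_of_hasCompactSupport hgc.smul_right
    refine ext_inner_left ℂ fun e => ?_
    rw [inner_zero_right, ← integral_inner hi]
    have hT : Setup.Tst (fun x => ((g x : ℝ) : ℂ) • e) := by
      refine ⟨(Setup.contDiff_ofReal hg).smul contDiff_const, hgc.mono ?_⟩
      intro x hx
      simp only [Function.mem_support] at hx ⊢
      intro h0
      exact hx (by simp [h0])
    rw [← h0 _ hT]
    refine integral_congr_ae (Eventually.of_forall fun x => ?_)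
    simp only
    rw [← Complex.coe_smul, inner_smul_right, inner_smul_left, Complex.conj_ofReal]
  exact (Continuous.ae_eq_iff_eq volume hc continuous_const).1 h1

lemma vac_of_FD {w : K} (h : ∀ β x, S.FD β (fun x : Cfg r => (gss x : ℂ) • w) x = 0) :
    ∀ A α, S.amF A α w = 0 := by
  have h1 : ∀ i A β, Complex.I • S.vec (S.g i) A β w + S.vec (S.g i * S.Gam) A β w = 0 := by
    intro i A β
    have h2 := h β (EuclideanSpace.single (i, A) 1)
    rw [FD_gss_eq] at h2
    rw [Finset.sum_eq_single i, Finset.sum_eq_single A] at h2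
    · rcases smul_eq_zero.1 h2 with h3 | h3
      · exfalso
        have h4 : aw i * (EuclideanSpace.single (i, A) (1 : ℝ) : Cfg r) (i, A) *
            gss (EuclideanSpace.single (i, A) (1 : ℝ) : Cfg r) = 0 := by exact_mod_cast h3
        have h5 := gss_pos (EuclideanSpace.single (i, A) (1 : ℝ) : Cfg r)
        have h6 := aw_ge i
        have h7 : (EuclideanSpace.single (i, A) (1 : ℝ) : Cfg r) (i, A) = 1 := by simp
        rw [h7, mul_one] at h4
        have : 0 < aw i * gss (EuclideanSpace.single (i, A) (1 : ℝ) : Cfg r) :=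
          mul_pos (by linarith) h5
        linarith
      · exact h3
    · intro B _ hB
      have : (EuclideanSpace.single (i, A) (1 : ℝ) : Cfg r) (i, B) = 0 := by
        simp [hB]
      rw [this]; simp
    · intro hA; exact absurd (Finset.mem_univ _) hA
    · intro j _ hj
      refine Finset.sum_eq_zero fun B _ => ?_
      have : (EuclideanSpace.single (i, A) (1 : ℝ) : Cfg r) (j, B) = 0 := by
        simp [hj]
      rw [this]; simp
    · intro hi; exact absurd (Finset.mem_univ _) hi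
  intro A α
  have h2 : ∑ β, S.g 0 α β • (Complex.I • S.vec (S.g 0) A β w + S.vec (S.g 0 * S.Gam) A β w) = 0 :=
    Finset.sum_eq_zero fun β _ => by rw [h1, smul_zero]
  have h3 : ∑ β, S.g 0 α β • S.vec (S.g 0) A β w = S.th α A w := by
    have := S.vec_mul (S.g 0) (S.g 0) A α
    rw [S.g_sqE, S.vec_one] at this
    rw [this]
    simp only [_root_.sum_apply, _root_.smul_apply]
  have h4 : ∑ β, S.g 0 α β • S.vec (S.g 0 * S.Gam) A β w = S.vec S.Gam A α w := by
    have := S.vec_mul (S.g 0) (S.g 0 * S.Gam) A α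
    rw [← mul_assoc, S.g_sqE, one_mul] at this
    rw [this]
    simp only [_root_.sum_apply, _root_.smul_apply]
  simp only [smul_add, Finset.sum_add_distrib] at h2
  have h5 : ∑ β, S.g 0 α β • Complex.I • S.vec (S.g 0) A β w = Complex.I • S.th α A w := by
    rw [← h3, Finset.smul_sum]
    exact Finset.sum_congr rfl fun β _ => smul_comm _ _ _
  rw [h5, h4] at h2
  have h6 : S.vec S.Gam A α w = -(Complex.I • S.th α A w) := by
    rw [eq_neg_iff_add_eq_zero, add_comm]; exact h2
  rw [Setup.amF, _root_.sub_apply, _root_.smul_apply, h6, smul_neg, smul_smul, Complex.I_mul_I,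
    neg_one_smul, neg_neg, sub_self]

/-- **F-Ker** -/
theorem ker [FiniteDimensional ℂ K] (hrem : RemStmt S) : KerStmt S := by
  intro L hL u hu h
  have hcomp : CompleteSpace K := FiniteDimensional.complete ℂ K
  have h0 : ∀ β, S.wF ∅ β u (fun _ => 0) := fun β => hrem L hL β u _ hu MemLp.zero (h β)
  have hQ : ∀ β ζ, Setup.Tst ζ → ∫ x, inner ℂ (S.Qlin 0 β ζ x) (u x) = 0 := by
    intro β ζ hζ
    have := h0 β ζ (TstOff_empty.2 hζ)
    simp only [inner_zero_right, integral_zero] at this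
    simp only [Qlin_zero]
    exact this
  obtain ⟨D, hDA, hDτ⟩ := l1_exists_data S (sq_stmt S) (hes_stmt S) (Vm_zero S) (isK S)
  set N1 : K →L[ℂ] K := S.Nx (trK (Kd r)) 0 with hN1
  have hpos : ∀ v, 0 ≤ (inner ℂ v (N1 v)).re := npos S (En.en S) 0 (Kd r) (Vm_zero S) (isK S)
  have hE : L1En S 0 D N1 := by
    intro v hv
    have := En.en S 0 (Kd r) (Vm_zero S) (isK S) v hv
    rw [hDA]
    exact this
  have hG : ∀ (C : Fin r) ζ, Setup.Tst ζ → ∫ x, inner ℂ
      (∑ i, ∑ A, ∑ B, ((S.f C A B : ℂ) * (((0 : Cfg r) (i, A) : ℝ) : ℂ)) • pd i B ζ x) (u x) = 0 := by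
    intro C ζ _
    simp
  have hu' : L1Gr u := by
    refine ⟨hu.1, fun s _ => (memLp_norm_sq_int hu).integrableOn, nsq u, 0, fun s _ => ?_⟩
    rw [pow_zero, mul_one]
    exact setIntegral_le_integral (memLp_norm_sq_int hu) (Eventually.of_forall fun x => by positivity)
  let N' : K →L[ℂ] K := ContinuousLinearMap.adjoint N1
  have hN' : ∀ v w, inner ℂ (N' v) w = inner ℂ v (N1 w) := fun v w =>
    ContinuousLinearMap.adjoint_inner_left N1 w v
  have hN'' : ∀ v w, inner ℂ (N1 v) w = inner ℂ v (N' w) := fun v w => by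
    rw [← inner_conj_symm, ← hN' w v, inner_conj_symm]
  let T : K →ₗ[ℂ] K := ((N1 + N' : K →L[ℂ] K) : K →ₗ[ℂ] K)
  have hTa : ∀ v, T v = N1 v + N' v := fun v => rfl
  have hT : T.IsSymmetric := by
    intro v w
    rw [hTa, hTa, inner_add_left, inner_add_right, hN', hN'', add_comm]
  obtain ⟨n, b, μ, hTb⟩ := l1_eig T hT
  have hb : ∀ j, N1 (b j) + N' (b j) = ((μ j : ℝ) : ℂ) • b j := fun j => by
    rw [← hTa, hTb]
  have hμ : ∀ j, μ j = 2 * (inner ℂ (b j) (N1 (b j))).re := fun j => by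
    have e1 : inner ℂ (b j) (N1 (b j) + N' (b j)) = ((μ j : ℝ) : ℂ) := by
      rw [hb j, inner_smul_right, inner_self_eq_norm_sq_to_K, b.norm_eq_one]
      simp
    have e2 : inner ℂ (b j) (N' (b j)) = conj (inner ℂ (b j) (N1 (b j))) := by
      rw [← hN'', inner_conj_symm]
    rw [inner_add_right, e2] at e1
    have e3 := congrArg Complex.re e1
    rw [Complex.add_re, Complex.conj_re, Complex.ofReal_re] at e3
    linarith
  have hμ0 : ∀ j, 0 ≤ μ j := fun j => by rw [hμ j]; have := hpos (b j); linarith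
  have hc : ∀ j, ∃ c : ℂ, (0 < μ j / 2 → c = 0) ∧
      ∀ᵐ x ∂(volume : Measure (Cfg r)), inner ℂ (b j) (u x) = c * D.GG x := fun j =>
    (l1_scalar S hDτ hE N' hN' hu' hQ hG (hb j)).liouville (by have := hμ0 j; linarith)
  choose c hc0 hc1 using hc
  have hall : ∀ᵐ x ∂(volume : Measure (Cfg r)), ∀ j, inner ℂ (b j) (u x) = c j * D.GG x :=
    ae_all_iff.mpr hc1
  have hGG : ∀ x, D.GG x = (gss x : ℂ) := by
    intro x
    rw [L1D.GG_eq, hDA, inner_Kd, gss]
  have hae : ∀ᵐ x ∂(volume : Measure (Cfg r)), u x = (gss x : ℂ) • ∑ j, c j • b j := by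
    filter_upwards [hall] with x hx
    have h1 : u x = ∑ j, inner ℂ (b j) (u x) • b j := (b.sum_repr' (u x)).symm
    rw [h1, Finset.smul_sum]
    refine Finset.sum_congr rfl fun j _ => ?_
    rw [hx j, hGG, smul_smul, mul_comm]
  refine ⟨∑ j, c j • b j, vac_of_FD S fun β x => ?_, hae⟩
  set w := ∑ j, c j • b j with hw
  have hs : ContDiff ℝ ∞ (fun x : Cfg r => (gss x : ℂ) • w) :=
    (Setup.contDiff_ofReal contDiff_gss).smul contDiff_const
  have hz := eq_zero_of_tst (contDiff_FD S hs β).continuous fun ζ hζ => by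
    rw [← FD_symm S β ζ _ hζ hs]
    have h2 := h0 β ζ (TstOff_empty.2 hζ)
    simp only [inner_zero_right, integral_zero] at h2
    rw [← h2]
    refine integral_congr_ae ?_
    filter_upwards [hae] with x hx
    rw [hx]
  exact congrFun hz x

end Vale.Agent.P353.Z.AF
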