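import Vale.Agent.P353.AN.F.Gss
import Vale.Agent.P353.Z.Energy

/-! # P353, all `N`, block F: Liouville theorem for the massless free supercharges, smooth case -/

open MeasureTheory Filter Topology
open scoped ContDiff

namespace Vale.Agent.P353.Z.AF

variable {r : ℕ} {K : Type*} [NormedAddCommGroup K] [InnerProductSpace ℂ K]

open Vale.Agent.P353.Z.Moll Vale.Agent.P353.Z.U.HB Vale.Agent.P353.Z.U.WS

variable (S : Setup r K)

lemma flat_Q0 (β : Fin 16) (u : Cfg r → K) : (flat S).Q β u = S.Q0 β u := by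
  funext x
  have hW : (flat S).W β x = 0 := by
    simp [Setup.W, Setup.FF, flat]
  unfold Setup.Q Setup.Q0
  rw [hW, _root_.zero_apply, add_zero]
  rfl

lemma energy_Q0 {u : Cfg r → K} (hu : Setup.Tst u) :
    ∑ β, nsq (S.Q0 β u) = 8 * ∑ i, ∑ A, nsq (pd i A u) := by
  have h := energy_formula (flat S) u hu
  have hV : ∀ x, (flat S).V x = 0 := fun x => by simp [Setup.V, Setup.FF, flat]
  have hF : ∀ x, (flat S).Fx x = 0 := fun x => by simp [Setup.Fx, flat]
  simp only [flat_Q0, hV, hF, zero_mul, _root_.zero_apply, inner_zero_right, Complex.zero_re,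
    integral_zero, add_zero] at h
  unfold nsq
  linarith

lemma contDiff_Q0 {u : Cfg r → K} (hu : ContDiff ℝ ∞ u) (β : Fin 16) : ContDiff ℝ ∞ (S.Q0 β u) := by
  rw [← flat_Q0]
  exact (flat S).contDiff_Q β hu

lemma Q0_cut {χ : Cfg r → ℝ} (hχ : ContDiff ℝ ∞ χ) (β : Fin 16) {v : Cfg r → K}
    (hv : ContDiff ℝ ∞ v) (x : Cfg r) :
    S.Q0 β (fun y => ((χ y : ℝ) : ℂ) • v y) x = ((χ x : ℝ) : ℂ) • S.Q0 β v x - S.esaD χ β x (v x) := by
  have h1 := FD_smul S β χ v x (hχ.differentiable (by simp) x) (hv.differentiable (by simp) x)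
  have h2 : S.MM β x (((χ x : ℝ) : ℂ) • v x) = ((χ x : ℝ) : ℂ) • S.MM β x (v x) := map_smul _ _ _
  rw [Setup.FD, Setup.FD, h2, smul_add] at h1
  have h3 : S.Q0 β (fun y => ((χ y : ℝ) : ℂ) • v y) x = ((χ x : ℝ) : ℂ) • S.Q0 β v x +
      ((χ x : ℝ) : ℂ) • S.MM β x (v x) - S.esaD χ β x (v x) - ((χ x : ℝ) : ℂ) • S.MM β x (v x) := by
    rw [← h1, add_sub_cancel_right]
  rw [h3]
  abel

lemma pd_eq_of_one {χ : Cfg r → ℝ} {R : ℝ} (h1 : ∀ x, ‖x‖ < R → χ x = 1) {v : Cfg r → K} (i : Fin 9)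
    (A : Fin r) {x : Cfg r} (hx : ‖x‖ < R) : pd i A (fun y => ((χ y : ℝ) : ℂ) • v y) x = pd i A v x := by
  unfold pd
  have : (fun y => ((χ y : ℝ) : ℂ) • v y) =ᶠ[𝓝 x] v := by
    have hb : Metric.ball (0 : Cfg r) R ∈ 𝓝 x :=
      Metric.isOpen_ball.mem_nhds (by rwa [Metric.mem_ball, dist_zero_right])
    filter_upwards [hb] with y hy
    rw [Metric.mem_ball, dist_zero_right] at hy
    rw [h1 y hy]
    simp
  rw [this.fderiv_eq]

/-- Caccioppoli -/
lemma cacc : ∃ C₀ : ℝ, 0 ≤ C₀ ∧ ∀ v : Cfg r → K, ContDiff ℝ ∞ v → (∀ β x, S.Q0 β v x = 0) →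
    ∀ R : ℝ, 0 < R → ∀ i A, ∫ x in Metric.ball (0 : Cfg r) R, ‖pd i A v x‖ ^ 2 ≤
      C₀ / R ^ 2 * ∫ x in Metric.ball (0 : Cfg r) (2 * R), ‖v x‖ ^ 2 := by
  obtain ⟨κ, hκ0, hκ⟩ := exists_rc
  refine ⟨∑ β, (κ * S.esaC β) ^ 2, by positivity, fun v hv h0 R hR i A => ?_⟩
  obtain ⟨h, hh⟩ := hκ (2 * R) (by positivity)
  have hsm : ContDiff ℝ ∞ (rad (dc := r) h) := contDiff_rad hh.contDiff
  set w : Cfg r → K := fun y => ((rad h y : ℝ) : ℂ) • v y with hw
  have hT : Setup.Tst w := by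
    refine ⟨(Setup.contDiff_ofReal hsm).smul hv, ?_⟩
    refine HasCompactSupport.intro (isCompact_closedBall (0 : Cfg r) (2 * R)) fun x hx => ?_
    rw [Metric.mem_closedBall, dist_zero_right, not_le] at hx
    simp only [hw]
    rw [hh.zero x hx.le, Complex.ofReal_zero, zero_smul]
  have hiv : ∀ s : ℝ, IntegrableOn (fun x => ‖v x‖ ^ 2) (Metric.ball (0 : Cfg r) s) := fun s =>
    ((hv.continuous.norm.pow 2).locallyIntegrable.integrableOn_isCompact
      (isCompact_closedBall (0 : Cfg r) s)).mono_set Metric.ball_subset_closedBall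
  have hQ : ∀ β x, S.Q0 β w x = -(S.esaD (rad h) β x (v x)) := by
    intro β x
    rw [hw, Q0_cut S hsm β hv x, h0, smul_zero, zero_sub]
  have hzero : ∀ β x, 2 * R ≤ ‖x‖ → S.esaD (rad h) β x = 0 := by
    intro β x hx
    have h1 : fderiv ℝ (rad (dc := r) h) x = 0 := by
      refine IsLocalMin.fderiv_eq_zero ?_
      refine Eventually.of_forall fun y => ?_
      rw [hh.zero x hx]
      exact hh.nonneg y
    have h2 : ∀ i A, pdr i A (rad (dc := r) h) x = 0 := fun i A => by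
      simp [pdr, h1]
    simp [Setup.esaD, h2]
  have hDb : ∀ β x, ‖S.esaD (rad h) β x‖ ≤ κ / (2 * R) * S.esaC β := fun β x =>
    D_norm S (fun j A y => hh.grad j A y) β x
  have hup : ∀ β, nsq (S.Q0 β w) ≤ (κ / (2 * R) * S.esaC β) ^ 2 *
      ∫ x in Metric.ball (0 : Cfg r) (2 * R), ‖v x‖ ^ 2 := by
    intro β
    unfold nsq
    rw [← integral_const_mul, ← integral_indicator Metric.isOpen_ball.measurableSet]
    refine integral_mono_of_nonneg (Eventually.of_forall fun x => by positivity) ?_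
      (Eventually.of_forall fun x => ?_)
    · refine (integrable_indicator_iff Metric.isOpen_ball.measurableSet).2 ?_
      exact (hiv (2 * R)).const_mul _
    · simp only
      rw [hQ, norm_neg]
      by_cases hx : x ∈ Metric.ball (0 : Cfg r) (2 * R)
      · rw [Set.indicator_of_mem hx, ← mul_pow]
        refine pow_le_pow_left₀ (norm_nonneg _) ?_ 2
        exact ((S.esaD (rad h) β x).le_opNorm _).trans
          (mul_le_mul_of_nonneg_right (hDb β x) (norm_nonneg _))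
      · rw [Set.indicator_of_notMem hx]
        rw [Metric.mem_ball, dist_zero_right, not_lt] at hx
        rw [hzero β x hx, _root_.zero_apply]
        simp
  have hlow : ∫ x in Metric.ball (0 : Cfg r) R, ‖pd i A v x‖ ^ 2 ≤ nsq (pd i A w) := by
    have e1 : ∫ x in Metric.ball (0 : Cfg r) R, ‖pd i A v x‖ ^ 2 =
        ∫ x in Metric.ball (0 : Cfg r) R, ‖pd i A w x‖ ^ 2 := by
      refine setIntegral_congr_fun Metric.isOpen_ball.measurableSet fun x hx => ?_
      rw [Metric.mem_ball, dist_zero_right] at hx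
      beta_reduce
      rw [hw, pd_eq_of_one (χ := rad h) (R := R) (fun y hy => hh.one y (by linarith)) i A hx]
    rw [e1]
    exact setIntegral_le_integral (memLp_norm_sq_int (hT.pd i A).memLp)
      (Eventually.of_forall fun x => by positivity)
  have hE := energy_Q0 S hT
  have h1 : nsq (pd i A w) ≤ ∑ i, ∑ A, nsq (pd i A w) := by
    refine le_trans ?_ (Finset.single_le_sum (f := fun i => ∑ A, nsq (pd i A w))
      (fun i _ => Finset.sum_nonneg fun A _ => nsq_nonneg _) (Finset.mem_univ i))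
    exact Finset.single_le_sum (f := fun A => nsq (pd i A w)) (fun A _ => nsq_nonneg _)
      (Finset.mem_univ A)
  have h2 : ∑ β, nsq (S.Q0 β w) ≤ (∑ β, (κ / (2 * R) * S.esaC β) ^ 2) *
      ∫ x in Metric.ball (0 : Cfg r) (2 * R), ‖v x‖ ^ 2 := by
    rw [Finset.sum_mul]
    exact Finset.sum_le_sum fun β _ => hup β
  have h3 : ∑ β, (κ / (2 * R) * S.esaC β) ^ 2 = (∑ β, (κ * S.esaC β) ^ 2) / (4 * R ^ 2) := by
    rw [Finset.sum_div]
    refine Finset.sum_congr rfl fun β _ => ?_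
    field_simp
    ring
  have h4 : 0 ≤ ∫ x in Metric.ball (0 : Cfg r) (2 * R), ‖v x‖ ^ 2 :=
    integral_nonneg fun x => by positivity
  have h5 : 0 ≤ ∑ β, (κ * S.esaC β) ^ 2 := by positivity
  set c := ∑ β, (κ * S.esaC β) ^ 2
  set J := ∫ x in Metric.ball (0 : Cfg r) (2 * R), ‖v x‖ ^ 2
  have h6 : c / (4 * R ^ 2) * J ≤ c / R ^ 2 * J := by
    refine mul_le_mul_of_nonneg_right ?_ h4
    exact div_le_div_of_nonneg_left h5 (by positivity) (by nlinarith [sq_nonneg R])
  rw [h3] at h2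
  have h7 : nsq (pd i A w) ≤ c / (4 * R ^ 2) * J := by
    have : 0 ≤ ∑ i, ∑ A, nsq (pd i A w) :=
      Finset.sum_nonneg fun i _ => Finset.sum_nonneg fun A _ => nsq_nonneg _
    linarith
  linarith

lemma Q0_pd {v : Cfg r → K} (hv : ContDiff ℝ ∞ v) (h0 : ∀ β x, S.Q0 β v x = 0) (j : Fin 9)
    (B : Fin r) : ∀ β x, S.Q0 β (pd j B v) x = 0 := by
  intro β x
  have h1 : S.Q0 β (pd j B v) x = pd j B (S.Q0 β v) x := by
    unfold Setup.Q0
    have hd : ∀ i A, DifferentiableAt ℝ (pd i A v) x := fun i A =>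
      ((hv.fderiv_right (m := ∞) (by simp)).clm_apply contDiff_const).differentiable (by simp) x
    have e1 : pd j B (fun x => (-Complex.I) • ∑ i, ∑ A, S.vec (S.g i) A β (pd i A v x)) x =
        (-Complex.I) • ∑ i, ∑ A, S.vec (S.g i) A β (pd j B (pd i A v) x) := by
      unfold pd
      have hd' : ∀ i A, HasFDerivAt (fun x => S.vec (S.g i) A β (pd i A v x))
          (((S.vec (S.g i) A β).restrictScalars ℝ).comp (fderiv ℝ (pd i A v) x)) x := fun i A =>
        ((S.vec (S.g i) A β).restrictScalars ℝ).hasFDerivAt.comp x (hd i A).hasFDerivAt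
      have hs : HasFDerivAt (fun x => (-Complex.I) • ∑ i, ∑ A, S.vec (S.g i) A β (pd i A v x))
          ((-Complex.I) • ∑ i, ∑ A,
            ((S.vec (S.g i) A β).restrictScalars ℝ).comp (fderiv ℝ (pd i A v) x)) x :=
        (HasFDerivAt.fun_sum fun i _ => HasFDerivAt.fun_sum fun A _ => hd' i A).const_smul (-Complex.I)
      have := hs.fderiv
      unfold pd at this
      rw [this]
      simp [_root_.sum_apply]
    rw [e1]
    congr 1
    refine Finset.sum_congr rfl fun i _ => Finset.sum_congr rfl fun A _ => ?_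
    rw [pd_comm hv]
  rw [h1]
  have h2 : S.Q0 β v = fun _ => 0 := funext fun x => h0 β x
  rw [h2]
  simp [pd]

/-- a constant with too small `L²` growth vanishes -/
lemma const_zero (hr : 0 < r) {c : K} {a : ℝ}
    (h : ∀ R : ℝ, 1 ≤ R → ∫ _x in Metric.ball (0 : Cfg r) R, ‖c‖ ^ 2 ≤ a * R ^ 3) : c = 0 := by
  by_contra hc
  have hc0 : 0 < ‖c‖ ^ 2 := by positivity
  set v₁ : ℝ := (volume (Metric.ball (0 : Cfg r) 1)).toReal with hv1
  have hv0 : 0 < v₁ := by
    rw [hv1]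
    refine ENNReal.toReal_pos ?_ Metric.isBounded_ball.measure_lt_top.ne
    exact (Metric.measure_ball_pos volume _ one_pos).ne'
  have hdim : Module.finrank ℝ (Cfg r) = 9 * r := by
    rw [finrank_euclideanSpace]
    simp
  have hvol : ∀ R : ℝ, 0 < R → (volume (Metric.ball (0 : Cfg r) R)).toReal = R ^ (9 * r) * v₁ := by
    intro R hR
    rw [Measure.addHaar_ball_of_pos volume _ hR, ENNReal.toReal_mul,
      ENNReal.toReal_ofReal (by positivity), hdim]
  have h1 : ∀ R : ℝ, 1 ≤ R → ‖c‖ ^ 2 * v₁ * R ≤ a := by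
    intro R hR
    have hR0 : 0 < R := by linarith
    have h2 := h R hR
    rw [setIntegral_const, smul_eq_mul, measureReal_def, hvol R hR0] at h2
    have h3 : R ^ 4 ≤ R ^ (9 * r) := pow_le_pow_right₀ hR (by omega)
    have h4 : ‖c‖ ^ 2 * v₁ * R ^ 4 ≤ a * R ^ 3 := by
      refine le_trans ?_ h2
      have : ‖c‖ ^ 2 * v₁ * R ^ 4 ≤ ‖c‖ ^ 2 * v₁ * R ^ (9 * r) :=
        mul_le_mul_of_nonneg_left h3 (by positivity)
      linarith
    have h5 : (‖c‖ ^ 2 * v₁ * R) * R ^ 3 ≤ a * R ^ 3 := by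
      calc (‖c‖ ^ 2 * v₁ * R) * R ^ 3 = ‖c‖ ^ 2 * v₁ * R ^ 4 := by ring
        _ ≤ _ := h4
    exact le_of_mul_le_mul_right h5 (by positivity)
  have hp : 0 < ‖c‖ ^ 2 * v₁ := mul_pos hc0 hv0
  have h2 := h1 (max 1 ((|a| + 1) / (‖c‖ ^ 2 * v₁))) (le_max_left _ _)
  have h3 : |a| + 1 ≤ ‖c‖ ^ 2 * v₁ * max 1 ((|a| + 1) / (‖c‖ ^ 2 * v₁)) := by
    calc |a| + 1 = ‖c‖ ^ 2 * v₁ * ((|a| + 1) / (‖c‖ ^ 2 * v₁)) := by field_simp
      _ ≤ _ := mul_le_mul_of_nonneg_left (le_max_right _ _) hp.le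
  have h4 := le_abs_self a
  linarith

lemma fderiv_zero_of_pd {v : Cfg r → K} {x : Cfg r}
    (h : ∀ i A, pd i A v x = 0) : fderiv ℝ v x = 0 := by
  ext y
  have e : y = ∑ p : Fin 9 × Fin r, y p • (EuclideanSpace.single p (1 : ℝ) : Cfg r) := by
    ext q
    simp [Finset.sum_apply, Pi.single_apply]
  rw [e, map_sum, _root_.zero_apply]
  refine Finset.sum_eq_zero fun p _ => ?_
  rw [map_smul]
  have := h p.1 p.2
  unfold pd at this
  rw [this, smul_zero]

lemma const_of_pd {v : Cfg r → K} (hv : ContDiff ℝ ∞ v) (h : ∀ i A x, pd i A v x = 0) (x : Cfg r) :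
    v x = v 0 :=
  is_const_of_fderiv_eq_zero (hv.differentiable (by simp))
    (fun y => fderiv_zero_of_pd fun i A => h i A y) x 0

/-- smooth Liouville theorem -/
theorem liou_smooth (hr : 0 < r) {h : Cfg r → K} (hh : ContDiff ℝ ∞ h)
    (h0 : ∀ β x, S.Q0 β h x = 0) {C : ℝ}
    (hC : ∀ R : ℝ, 1 ≤ R → ∫ x in Metric.ball (0 : Cfg r) R, ‖h x‖ ^ 2 ≤ C * R ^ 3) : h = 0 := by
  obtain ⟨C₀, hC0, hcac⟩ := cacc S
  have hpd : ∀ (v : Cfg r → K), ContDiff ℝ ∞ v → ∀ i A, ContDiff ℝ ∞ (pd i A v) := fun v hv i A =>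
    (hv.fderiv_right (m := ∞) (by simp)).clm_apply contDiff_const
  -- first derivatives
  have h1 : ∀ i A, ∀ R : ℝ, 1 ≤ R → ∫ x in Metric.ball (0 : Cfg r) R, ‖pd i A h x‖ ^ 2 ≤
      (8 * C₀ * C) * R := by
    intro i A R hR
    have hR0 : 0 < R := by linarith
    refine (hcac h hh h0 R hR0 i A).trans ?_
    calc C₀ / R ^ 2 * ∫ x in Metric.ball (0 : Cfg r) (2 * R), ‖h x‖ ^ 2
        ≤ C₀ / R ^ 2 * (C * (2 * R) ^ 3) :=
          mul_le_mul_of_nonneg_left (hC (2 * R) (by linarith)) (by positivity)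
      _ = _ := by field_simp; ring
  -- second derivatives
  have h2 : ∀ i A j B, ∀ R : ℝ, 1 ≤ R → ∫ x in Metric.ball (0 : Cfg r) R, ‖pd j B (pd i A h) x‖ ^ 2 ≤
      (16 * C₀ ^ 2 * C) / R := by
    intro i A j B R hR
    have hR0 : 0 < R := by linarith
    refine (hcac _ (hpd h hh i A) (Q0_pd S hh h0 i A) R hR0 j B).trans ?_
    calc C₀ / R ^ 2 * ∫ x in Metric.ball (0 : Cfg r) (2 * R), ‖pd i A h x‖ ^ 2
        ≤ C₀ / R ^ 2 * ((8 * C₀ * C) * (2 * R)) :=
          mul_le_mul_of_nonneg_left (h1 i A (2 * R) (by linarith)) (by positivity)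
      _ = _ := by field_simp; ring
  have h3 : ∀ i A j B x, pd j B (pd i A h) x = 0 := by
    intro i A j B
    have hcont : Continuous (pd j B (pd i A h)) := (hpd _ (hpd h hh i A) j B).continuous
    have hint : ∀ s : ℝ, IntegrableOn (fun x => ‖pd j B (pd i A h) x‖ ^ 2)
        (Metric.ball (0 : Cfg r) s) := fun s =>
      ((hcont.norm.pow 2).locallyIntegrable.integrableOn_isCompact
        (isCompact_closedBall (0 : Cfg r) s)).mono_set Metric.ball_subset_closedBall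
    have hz : ∀ s : ℝ, 1 ≤ s → ∫ x in Metric.ball (0 : Cfg r) s, ‖pd j B (pd i A h) x‖ ^ 2 = 0 := by
      intro s hs
      refine le_antisymm ?_ (integral_nonneg fun x => by positivity)
      have hlim : Tendsto (fun n : ℕ => (16 * C₀ ^ 2 * C) / (n : ℝ)) atTop (𝓝 0) :=
        tendsto_const_nhds.div_atTop tendsto_natCast_atTop_atTop
      refine ge_of_tendsto hlim ?_
      filter_upwards [Filter.eventually_ge_atTop ⌈s⌉₊] with n hn
      have hn' : s ≤ (n : ℝ) := Nat.ceil_le.mp hn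
      refine le_trans ?_ (h2 i A j B n (by linarith))
      exact setIntegral_mono_set (hint n) (Eventually.of_forall fun x => by positivity)
        (Metric.ball_subset_ball hn').eventuallyLE
    intro x
    by_contra hne
    have hs1 : (1 : ℝ) ≤ ‖x‖ + 1 := by linarith [norm_nonneg x]
    have h4 := hz (‖x‖ + 1) hs1
    rw [setIntegral_eq_zero_iff_of_nonneg_ae (Eventually.of_forall fun x => by positivity)
      (hint _)] at h4
    have h5 : Set.EqOn (fun x => ‖pd j B (pd i A h) x‖ ^ 2) 0 (Metric.ball (0 : Cfg r) (‖x‖ + 1)) :=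
      Measure.eqOn_open_of_ae_eq h4 Metric.isOpen_ball (hcont.norm.pow 2).continuousOn
        continuousOn_const
    have h6 := h5 (show x ∈ Metric.ball (0 : Cfg r) (‖x‖ + 1) by
      rw [Metric.mem_ball, dist_zero_right]; linarith)
    simp only [Pi.zero_apply] at h6
    exact hne (norm_eq_zero.1 (pow_eq_zero_iff (by norm_num) |>.1 h6))
  have h4 : ∀ i A x, pd i A h x = pd i A h 0 := fun i A =>
    const_of_pd (hpd h hh i A) fun j B y => h3 i A j B y
  have h5 : ∀ i A x, pd i A h x = 0 := by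
    intro i A x
    rw [h4]
    refine const_zero (r := r) hr (a := |8 * C₀ * C|) fun R hR => ?_
    have e1 : ∫ _x in Metric.ball (0 : Cfg r) R, ‖pd i A h 0‖ ^ 2 =
        ∫ x in Metric.ball (0 : Cfg r) R, ‖pd i A h x‖ ^ 2 := by
      simp only [h4 i A]
    rw [e1]
    refine (h1 i A R hR).trans ?_
    have : R ≤ R ^ 3 := by nlinarith [mul_self_nonneg R, mul_self_nonneg (R - 1)]
    calc 8 * C₀ * C * R ≤ |8 * C₀ * C| * R :=
          mul_le_mul_of_nonneg_right (le_abs_self _) (by linarith)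
      _ ≤ _ := mul_le_mul_of_nonneg_left this (abs_nonneg _)
  have h6 : ∀ x, h x = h 0 := const_of_pd hh h5
  funext x
  rw [h6, Pi.zero_apply]
  refine const_zero (r := r) hr (a := C) fun R hR => ?_
  have e1 : ∫ _x in Metric.ball (0 : Cfg r) R, ‖h 0‖ ^ 2 =
      ∫ x in Metric.ball (0 : Cfg r) R, ‖h x‖ ^ 2 := by
    refine setIntegral_congr_fun Metric.isOpen_ball.measurableSet fun x _ => ?_
    beta_reduce
    rw [h6 x]
  rw [e1]
  exact hC R hR

end Vale.Agent.P353.Z.AF
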