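import Vale.Agent.P353.AN.F.Str
import Vale.Agent.P353.AN.F.Cut

/-! # P353, all `N`, block F: the collision set is removable (F-Rem, owner helper777) -/

open MeasureTheory Filter Topology
open scoped ContDiff

namespace Vale.Agent.P353.Z.AF

variable {r : ℕ} {K : Type*} [NormedAddCommGroup K] [InnerProductSpace ℂ K]

/-- multiplication by the cutoffs converges weakly -/
lemma cut_mul_tendsto {η : ℕ → Cfg r → ℝ} (hη : ∀ n, Continuous (η n))
    (h01 : ∀ n y, 0 ≤ η n y ∧ η n y ≤ 1)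
    (hae : ∀ᵐ y ∂(volume : Measure (Cfg r)), ∀ᶠ n in atTop, η n y = 1) {f g : Cfg r → K}
    (hf : MemLp f 2 (volume : Measure (Cfg r))) (hg : MemLp g 2 (volume : Measure (Cfg r))) :
    Tendsto (fun n => ∫ x, inner ℂ (((η n x : ℝ) : ℂ) • f x) (g x)) atTop
      (𝓝 (∫ x, inner ℂ (f x) (g x))) := by
  have e : ∀ n x, inner ℂ (((η n x : ℝ) : ℂ) • f x) (g x) =
      ((η n x : ℝ) : ℂ) * inner ℂ (f x) (g x) := by
    intro n x
    rw [inner_smul_left, Complex.conj_ofReal]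
  simp only [e]
  have hi := integrable_inner_memLp hf hg
  refine tendsto_integral_of_dominated_convergence (fun x => ‖inner ℂ (f x) (g x)‖) ?_ hi.norm ?_ ?_
  · intro n
    exact ((Complex.continuous_ofReal.comp (hη n)).aestronglyMeasurable).mul
      hi.aestronglyMeasurable
  · intro n
    filter_upwards with x
    rw [norm_mul, Complex.norm_real, Real.norm_of_nonneg (h01 n x).1]
    exact mul_le_of_le_one_left (norm_nonneg _) (h01 n x).2
  · filter_upwards [hae] with x hx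
    refine tendsto_const_nhds.congr' ?_
    filter_upwards [hx] with n hn
    rw [hn]; simp

lemma D_norm_sq (S : Setup r K) (χ : Cfg r → ℝ) (β : Fin 16) (x : Cfg r) (w : K) :
    ‖S.esaD χ β x w‖ ^ 2 ≤ (∑ i, ∑ A, ‖S.vec (S.g i) A β‖ ^ 2) * ‖w‖ ^ 2 *
      ∑ i, ∑ A, pdr i A χ x ^ 2 := by
  have h1 : ‖S.esaD χ β x w‖ ≤ (∑ i, ∑ A, ‖S.vec (S.g i) A β‖ * |pdr i A χ x|) * ‖w‖ := by
    refine ((S.esaD χ β x).le_opNorm w).trans (mul_le_mul_of_nonneg_right ?_ (norm_nonneg _))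
    unfold Setup.esaD
    rw [norm_smul, Complex.norm_I, one_mul]
    refine (norm_sum_le _ _).trans (Finset.sum_le_sum fun i _ => ?_)
    refine (norm_sum_le _ _).trans (Finset.sum_le_sum fun A _ => ?_)
    rw [norm_smul, Complex.norm_real, Real.norm_eq_abs, mul_comm]
  have h2 : (∑ i, ∑ A, ‖S.vec (S.g i) A β‖ * |pdr i A χ x|) ^ 2 ≤
      (∑ i, ∑ A, ‖S.vec (S.g i) A β‖ ^ 2) * ∑ i, ∑ A, pdr i A χ x ^ 2 := by
    have := Finset.sum_mul_sq_le_sq_mul_sq (Finset.univ : Finset (Fin 9 × Fin r))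
      (fun p => ‖S.vec (S.g p.1) p.2 β‖) (fun p => |pdr p.1 p.2 χ x|)
    simp only [sq_abs, Fintype.sum_prod_type] at this
    exact this
  calc ‖S.esaD χ β x w‖ ^ 2 ≤ ((∑ i, ∑ A, ‖S.vec (S.g i) A β‖ * |pdr i A χ x|) * ‖w‖) ^ 2 :=
        pow_le_pow_left₀ (norm_nonneg _) h1 2
    _ = (∑ i, ∑ A, ‖S.vec (S.g i) A β‖ * |pdr i A χ x|) ^ 2 * ‖w‖ ^ 2 := by ring
    _ ≤ ((∑ i, ∑ A, ‖S.vec (S.g i) A β‖ ^ 2) * ∑ i, ∑ A, pdr i A χ x ^ 2) * ‖w‖ ^ 2 :=
        mul_le_mul_of_nonneg_right h2 (sq_nonneg _)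
    _ = _ := by ring

/-- the commutator term tends to `0` -/
lemma esaD_tendsto (S : Setup r K) {η : ℕ → Cfg r → ℝ} (hη : ∀ n, ContDiff ℝ ∞ (η n))
    (hE : ∀ s : ℝ, 0 < s → Tendsto (fun n => ∑ i, ∑ A,
      ∫ y in Metric.ball (0 : Cfg r) s, pdr i A (η n) y ^ 2) atTop (𝓝 0))
    {ζ : Cfg r → K} (hζ : Setup.Tst ζ) (β : Fin 16) :
    (∀ n, MemLp (fun x => S.esaD (η n) β x (ζ x)) 2 (volume : Measure (Cfg r))) ∧
    Tendsto (fun n => nsq (fun x => S.esaD (η n) β x (ζ x))) atTop (𝓝 0) := by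
  obtain ⟨C, ρ, hC0, hρ0, hC, hsupp⟩ := hζ.exists_bound
  have hcont : ∀ n, Continuous (fun x => S.esaD (η n) β x (ζ x)) := fun n =>
    ((S.esa_contDiff_D (hη n) β).continuous).clm_apply hζ.1.continuous
  have hz : ∀ n x, x ∉ Metric.ball (0 : Cfg r) (ρ + 1) → S.esaD (η n) β x (ζ x) = 0 := by
    intro n x hx
    have h1 : ρ < ‖x‖ := by
      rw [Metric.mem_ball, dist_zero_right, not_lt] at hx
      linarith
    rw [hsupp x h1, map_zero]
  have hcs : ∀ n, HasCompactSupport (fun x => S.esaD (η n) β x (ζ x)) := fun n =>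
    HasCompactSupport.intro (isCompact_closedBall (0 : Cfg r) (ρ + 1)) fun x hx =>
      hz n x fun h => hx (Metric.ball_subset_closedBall h)
  refine ⟨fun n => (hcont n).memLp_of_hasCompactSupport (hcs n), ?_⟩
  obtain ⟨M, hM⟩ : ∃ M : ℝ, M = (∑ i, ∑ A, ‖S.vec (S.g i) A β‖ ^ 2) * C ^ 2 := ⟨_, rfl⟩
  have hM0 : 0 ≤ M := by rw [hM]; positivity
  have hio : ∀ n i A, IntegrableOn (fun y => pdr i A (η n) y ^ 2)
      (Metric.ball (0 : Cfg r) (ρ + 1)) := by
    intro n i A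
    have h1 : Continuous (fun y => pdr i A (η n) y ^ 2) :=
      (esa_pdr_smooth (hη n) i A).continuous.pow 2
    exact (h1.locallyIntegrable.integrableOn_isCompact
      (isCompact_closedBall (0 : Cfg r) (ρ + 1))).mono_set Metric.ball_subset_closedBall
  have hb : ∀ n, nsq (fun x => S.esaD (η n) β x (ζ x)) ≤
      M * ∑ i, ∑ A, ∫ y in Metric.ball (0 : Cfg r) (ρ + 1), pdr i A (η n) y ^ 2 := by
    intro n
    unfold nsq
    rw [← setIntegral_eq_integral_of_forall_compl_eq_zero (s := Metric.ball (0 : Cfg r) (ρ + 1))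
      (fun x hx => by simp only [hz n x hx]; simp)]
    have e1 : M * ∑ i, ∑ A, ∫ y in Metric.ball (0 : Cfg r) (ρ + 1), pdr i A (η n) y ^ 2 =
        ∫ y in Metric.ball (0 : Cfg r) (ρ + 1), M * ∑ i, ∑ A, pdr i A (η n) y ^ 2 := by
      rw [integral_const_mul, integral_finsetSum _ fun i _ =>
        integrable_finsetSum _ fun A _ => hio n i A]
      congr 1
      refine Finset.sum_congr rfl fun i _ => ?_
      rw [integral_finsetSum _ fun A _ => hio n i A]
    rw [e1]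
    refine setIntegral_mono_on ?_ ?_ measurableSet_ball fun x _ => ?_
    · have h1 : Continuous (fun x => ‖S.esaD (η n) β x (ζ x)‖ ^ 2) := (hcont n).norm.pow 2
      exact (h1.locallyIntegrable.integrableOn_isCompact
        (isCompact_closedBall (0 : Cfg r) (ρ + 1))).mono_set Metric.ball_subset_closedBall
    · exact (integrable_finsetSum _ fun i _ =>
        integrable_finsetSum _ fun A _ => hio n i A).const_mul M
    · refine (D_norm_sq S (η n) β x (ζ x)).trans ?_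
      rw [hM]
      have h1 : ‖ζ x‖ ^ 2 ≤ C ^ 2 := pow_le_pow_left₀ (norm_nonneg _) (hC x) 2
      have h2 : 0 ≤ ∑ i, ∑ A, pdr i A (η n) x ^ 2 := by positivity
      have h3 : 0 ≤ ∑ i, ∑ A, ‖S.vec (S.g i) A β‖ ^ 2 := by positivity
      exact mul_le_mul_of_nonneg_right (mul_le_mul_of_nonneg_left h1 h3) h2
  refine squeeze_zero (fun n => nsq_nonneg _) hb ?_
  have := (hE (ρ + 1) (by linarith)).const_mul M
  simpa using this

/-- **F-Rem2** -/
theorem rem2 (S : Setup r K) : Rem2Stmt S := by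
  intro L hL v g hv hg h ζ hζ
  obtain ⟨η, hη, h01, hdis, hev, hae, hE⟩ := cut r L hL
  have hae' : ∀ᵐ y ∂(volume : Measure (Cfg r)), ∀ᶠ n in atTop, η n y = 1 := by
    filter_upwards [hae] with y hy using hev y hy
  have hoff : ∀ n, TstOff L (fun y => ((η n y : ℝ) : ℂ) • ζ y) := by
    intro n
    refine ⟨⟨(Setup.contDiff_ofReal (hη n)).smul hζ.1, hζ.2.smul_left⟩, ?_⟩
    refine (hdis n).mono_left (closure_mono fun y hy => ?_)
    rw [Function.mem_support] at hy ⊢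
    intro h0
    apply hy
    rw [h0]; simp
  have hFD : ∀ n β x, S.FD β (fun y => ((η n y : ℝ) : ℂ) • ζ y) x =
      ((η n x : ℝ) : ℂ) • S.FD β ζ x - S.esaD (η n) β x (ζ x) := fun n β x =>
    FD_smul S β (η n) ζ x ((hη n).differentiable (by simp) x) (hζ.1.differentiable (by simp) x)
  have hF : ∀ β, MemLp (S.FD β ζ) 2 (volume : Measure (Cfg r)) := fun β => (Tst_FD S hζ β).memLp
  have hηF : ∀ n β, MemLp (fun x => ((η n x : ℝ) : ℂ) • S.FD β ζ x) 2
      (volume : Measure (Cfg r)) := by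
    intro n β
    have h1 : Setup.Tst (fun x => ((η n x : ℝ) : ℂ) • S.FD β ζ x) :=
      ⟨(Setup.contDiff_ofReal (hη n)).smul (Tst_FD S hζ β).1, (Tst_FD S hζ β).2.smul_left⟩
    exact h1.memLp
  have hlim1 : Tendsto (fun n => ∑ β, ((∫ x, inner ℂ (((η n x : ℝ) : ℂ) • S.FD β ζ x) (v β x)) -
      ∫ x, inner ℂ (S.esaD (η n) β x (ζ x)) (v β x))) atTop
      (𝓝 (∑ β, ((∫ x, inner ℂ (S.FD β ζ x) (v β x)) - 0))) := by
    refine tendsto_finsetSum _ fun β _ => Tendsto.sub ?_ ?_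
    · exact cut_mul_tendsto (fun n => (hη n).continuous) h01 hae' (hF β) (hv β)
    · obtain ⟨hm, ht⟩ := esaD_tendsto S hη hE hζ β
      rw [tendsto_zero_iff_norm_tendsto_zero]
      have hsq : Tendsto (fun n => Real.sqrt (nsq (fun x => S.esaD (η n) β x (ζ x))) *
          Real.sqrt (∫ x, ‖v β x‖ ^ 2)) atTop (𝓝 0) := by
        have := (ht.sqrt).mul_const (Real.sqrt (∫ x, ‖v β x‖ ^ 2))
        simpa using this
      exact squeeze_zero (fun n => norm_nonneg _) (fun n => cs_inner (hm n) (hv β)) hsq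
  have hlim2 : Tendsto (fun n => ∫ x, inner ℂ (((η n x : ℝ) : ℂ) • ζ x) (g x)) atTop
      (𝓝 (∫ x, inner ℂ (ζ x) (g x))) :=
    cut_mul_tendsto (fun n => (hη n).continuous) h01 hae' hζ.memLp hg
  have heq : ∀ n, ∑ β, ((∫ x, inner ℂ (((η n x : ℝ) : ℂ) • S.FD β ζ x) (v β x)) -
      ∫ x, inner ℂ (S.esaD (η n) β x (ζ x)) (v β x)) =
      ∫ x, inner ℂ (((η n x : ℝ) : ℂ) • ζ x) (g x) := by
    intro n
    rw [← h _ (hoff n)]
    refine Finset.sum_congr rfl fun β _ => ?_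
    rw [← integral_sub (integrable_inner_memLp (hηF n β) (hv β))
      (integrable_inner_memLp ((esaD_tendsto S hη hE hζ β).1 n) (hv β))]
    refine integral_congr_ae (Eventually.of_forall fun x => ?_)
    simp only [hFD, inner_sub_left]
  have := tendsto_nhds_unique (hlim1.congr heq) hlim2
  simpa using this

/-- **F-Rem** -/
theorem rem (S : Setup r K) : RemStmt S := by
  classical
  intro L hL β u v hu hv h ζ hζ
  have h1 := rem2 S L hL (fun γ => if γ = β then u else 0) v (fun γ => by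
    by_cases hh : γ = β
    · simp only [if_pos hh]; exact hu
    · simp only [if_neg hh]; exact MemLp.zero') hv (fun ξ hξ => by
      rw [← h ξ hξ, Finset.sum_eq_single β]
      · simp
      · intro γ _ hγ
        simp [hγ]
      · intro hh
        exact absurd (Finset.mem_univ β) hh) ζ hζ.1
  rw [← h1, Finset.sum_eq_single β]
  · simp
  · intro γ _ hγ
    simp [hγ]
  · intro hh
    exact absurd (Finset.mem_univ β) hh

end Vale.Agent.P353.Z.AF
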