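import Vale.Agent.P353.AN.F.Str

/-! # P353, all `N`, block F: resolvent equation of the free supercharges -/

open MeasureTheory Filter Topology
open scoped ContDiff

namespace Vale.Agent.P353.Z.AF

variable {r : ℕ} {K : Type*} [NormedAddCommGroup K] [InnerProductSpace ℂ K]

open Vale.Agent.P353.Z.Moll Vale.Agent.P353.Z.U.HB Vale.Agent.P353.Z.U.WS

lemma TstOff_empty {ζ : Cfg r → K} : TstOff ∅ ζ ↔ Setup.Tst ζ := by
  unfold TstOff Coll
  simp

lemma re_int_self (f : Cfg r → K) :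
    (∫ x, inner ℂ (f x) (f x)).re = nsq f := by
  have h1 : ∀ x, inner ℂ (f x) (f x) = ((‖f x‖ ^ 2 : ℝ) : ℂ) := fun x => by
    rw [inner_self_eq_norm_sq_to_K]; push_cast; rfl
  simp only [h1]
  rw [integral_complex_ofReal, Complex.ofReal_re, nsq]

lemma res_core [CompleteSpace K] (S : Setup r K) (B : Finset (Fin 16)) {c : ℝ} (hc : 0 < c)
    {φ w : Cfg r → K} {v : Fin 16 → Cfg r → K} (hφ : MemLp φ 2 (volume : Measure (Cfg r)))
    (hw : MemLp w 2 (volume : Measure (Cfg r))) (hv : ∀ β ∈ B, MemLp (v β) 2 (volume : Measure (Cfg r)))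
    (h1 : ∀ β ∈ B, S.wF ∅ β w (v β))
    (h2 : ∀ ζ, Setup.Tst ζ → ∑ β ∈ B, ∫ x, inner ℂ (S.FD β ζ x) (v β x) =
      ∫ x, inner ℂ (ζ x) ((c : ℂ) • (φ x - w x))) : nsq w ≤ nsq φ := by
  obtain ⟨z, hz, hzw, hzv⟩ := str S B w v hw hv h1
  have hd : MemLp (fun x => (c : ℂ) • (φ x - w x)) 2 (volume : Measure (Cfg r)) :=
    (hφ.sub hw).const_smul (c : ℂ)
  have l1 : Tendsto (fun n => ∑ β ∈ B, ∫ x, inner ℂ (S.FD β (z n) x) (v β x)) atTop
      (𝓝 (∑ β ∈ B, ∫ x, inner ℂ (v β x) (v β x))) :=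
    tendsto_finsetSum _ fun β hβ => (hzv β hβ).lim_inner (L2t_const (hv β hβ))
  have l2 : Tendsto (fun n => ∫ x, inner ℂ (z n x) ((c : ℂ) • (φ x - w x))) atTop
      (𝓝 (∫ x, inner ℂ (w x) ((c : ℂ) • (φ x - w x)))) := hzw.lim_inner (L2t_const hd)
  have e := tendsto_nhds_unique l1 (l2.congr fun n => (h2 _ (hz n)).symm)
  have e1 : (∑ β ∈ B, ∫ x, inner ℂ (v β x) (v β x)).re = ∑ β ∈ B, nsq (v β) := by
    rw [Complex.re_sum]
    exact Finset.sum_congr rfl fun β hβ => re_int_self (v β)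
  have e2 : (∫ x, inner ℂ (w x) ((c : ℂ) • (φ x - w x))).re =
      c * ((∫ x, inner ℂ (w x) (φ x)).re - nsq w) := by
    have e3 : ∀ x, inner ℂ (w x) ((c : ℂ) • (φ x - w x)) =
        (c : ℂ) * (inner ℂ (w x) (φ x) - inner ℂ (w x) (w x)) := fun x => by
      rw [inner_smul_right, inner_sub_right]
    simp only [e3]
    rw [integral_const_mul, integral_sub (integrable_inner_memLp hw hφ)
      (integrable_inner_memLp hw hw), Complex.re_ofReal_mul, Complex.sub_re, re_int_self w]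
  have e4 := congrArg Complex.re e
  rw [e1, e2] at e4
  have e5 : 0 ≤ c * ((∫ x, inner ℂ (w x) (φ x)).re - nsq w) := by
    rw [← e4]; exact Finset.sum_nonneg fun β _ => nsq_nonneg _
  have e6 : nsq w ≤ (∫ x, inner ℂ (w x) (φ x)).re := by
    have := nonneg_of_mul_nonneg_right e5 hc
    linarith
  have e7 : (∫ x, inner ℂ (w x) (φ x)).re ≤ Real.sqrt (nsq w) * Real.sqrt (nsq φ) :=
    (Complex.re_le_norm _).trans (cs_inner hw hφ)
  have e8 := e6.trans e7
  by_contra hcon
  rw [not_le] at hcon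
  have h0 := nsq_nonneg φ
  have h3 : Real.sqrt (nsq φ) < Real.sqrt (nsq w) := Real.sqrt_lt_sqrt h0 hcon
  have h4 : 0 < Real.sqrt (nsq w) := lt_of_le_of_lt (Real.sqrt_nonneg _) h3
  have h5 : Real.sqrt (nsq w) * Real.sqrt (nsq w) = nsq w :=
    Real.mul_self_sqrt (nsq_nonneg w)
  nlinarith

theorem rem_of_rem2 (S : Setup r K) (h : Rem2Stmt S) : RemStmt S := by
  classical
  intro L hL β u v hu hv hw ζ hζ
  have key := h L hL (fun b => if b = β then u else fun _ => 0) v (fun b => by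
    by_cases hb : b = β
    · simp only [hb, if_true]; exact hu
    · simp only [hb, if_false]; exact MemLp.zero) hv ?_ ζ (TstOff_empty.1 hζ)
  · rw [Finset.sum_eq_single β] at key
    · simpa using key
    · intro b _ hb
      simp [hb]
    · intro hb
      exact absurd (Finset.mem_univ _) hb
  · intro ζ hζ
    rw [Finset.sum_eq_single β]
    · simpa using hw ζ hζ
    · intro b _ hb
      simp [hb]
    · intro hb
      exact absurd (Finset.mem_univ _) hb

lemma wF_sub (S : Setup r K) {L : Finset (Fin r → ℝ)} {β : Fin 16} {u u' v v' : Cfg r → K}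
    (hu : MemLp u 2 (volume : Measure (Cfg r))) (hu' : MemLp u' 2 (volume : Measure (Cfg r)))
    (hv : MemLp v 2 (volume : Measure (Cfg r))) (hv' : MemLp v' 2 (volume : Measure (Cfg r)))
    (h : S.wF L β u v) (h' : S.wF L β u' v') :
    S.wF L β (fun x => u x - u' x) (fun x => v x - v' x) := by
  intro ζ hζ
  simp only [inner_sub_right]
  rw [integral_sub (integrable_inner_memLp (Tst_FD S hζ.1 β).memLp hu)
    (integrable_inner_memLp (Tst_FD S hζ.1 β).memLp hu'),
    integral_sub (integrable_inner_memLp hζ.1.memLp hv) (integrable_inner_memLp hζ.1.memLp hv'),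
    h ζ hζ, h' ζ hζ]

theorem res2 [CompleteSpace K] (S : Setup r K) (hrem : Rem2Stmt S) : Res2Stmt S := by
  intro L hL c φ φ₀ w v hc hφ hφ₀ hw hv h1 h2 h0
  have hrem1 := rem_of_rem2 S hrem
  have g1 : ∀ β, S.wF ∅ β (fun x => w x - φ₀ x) (v β) := by
    intro β
    have a1 := hrem1 L hL β w (v β) hw (hv β) (h1 β)
    have a2 := hrem1 L hL β φ₀ (fun _ => 0) hφ₀ MemLp.zero (h0 β)
    have := wF_sub S hw hφ₀ (hv β) MemLp.zero a1 a2
    simpa using this
  have g2 := hrem L hL v (fun x => (c : ℂ) • (φ x - w x)) hv ((hφ.sub hw).const_smul (c : ℂ)) h2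
  refine res_core S Finset.univ hc (φ := fun x => φ x - φ₀ x) (v := v) (hφ.sub hφ₀) (hw.sub hφ₀)
    (fun β _ => hv β) (fun β _ => g1 β) fun ζ hζ => ?_
  rw [g2 ζ hζ]
  refine integral_congr_ae (Eventually.of_forall fun x => ?_)
  simp only
  congr 2
  abel

theorem res [CompleteSpace K] (S : Setup r K) (hrem : Rem2Stmt S) : ResStmt S := by
  intro L hL β φ φ₀ w v hφ hφ₀ hw hv h1 h2 h0
  have hrem1 := rem_of_rem2 S hrem
  have g1 : S.wF ∅ β (fun x => w x - φ₀ x) v := by
    have a1 := hrem1 L hL β w v hw hv h1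
    have a2 := hrem1 L hL β φ₀ (fun _ => 0) hφ₀ MemLp.zero h0
    have := wF_sub S hw hφ₀ hv MemLp.zero a1 a2
    simpa using this
  have g2 := hrem1 L hL β v (fun x => φ x - w x) hv (hφ.sub hw) h2
  refine res_core S {β} one_pos (φ := fun x => φ x - φ₀ x) (v := fun _ => v) (hφ.sub hφ₀)
    (hw.sub hφ₀) (fun _ _ => hv) (fun b hb => ?_) fun ζ hζ => ?_
  · rw [Finset.mem_singleton] at hb
    rw [hb]; exact g1
  · rw [Finset.sum_singleton, g2 ζ (TstOff_empty.2 hζ)]
    refine integral_congr_ae (Eventually.of_forall fun x => ?_)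
    simp only [Complex.ofReal_one, one_smul]
    congr 1
    abel

end Vale.Agent.P353.Z.AF
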